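import Vale.Agent.P158.Defs

/-!
# P158, row [AB]: two values
-/

namespace Vale.Agent.P158

open MeasureTheory

/-- [AB] Ab.lean -/
theorem two_points (G : Measure ℝ) [IsProbabilityMeasure G] (h0 : G (Set.Iio 0) = 0)
    (ha : ∀ x, G {x} = 0) : ∃ a b : ℝ, 0 ≤ a ∧ a < b ∧ G (Set.Iic a) ≠ 0 ∧ G (Set.Ici b) ≠ 0 := by
  by_contra hcon
  push Not at hcon
  have hS0 : ∀ x, G (Set.Iic x) ≠ 0 → 0 ≤ x := by
    intro x hx
    by_contra hlt
    push Not at hlt
    apply hx
    refine measure_mono_null ?_ h0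
    intro y hy
    exact lt_of_le_of_lt hy hlt
  have hne : {x : ℝ | G (Set.Iic x) ≠ 0}.Nonempty := by
    by_contra hemp
    rw [Set.not_nonempty_iff_eq_empty] at hemp
    have h1 : ∀ x, G (Set.Iic x) = 0 := by
      intro x
      by_contra hx
      have : x ∈ {x : ℝ | G (Set.Iic x) ≠ 0} := hx
      rw [hemp] at this
      exact this
    have h2 : G (⋃ n : ℕ, Set.Iic (n : ℝ)) = 0 := measure_iUnion_null fun n => h1 n
    have h3 : (⋃ n : ℕ, Set.Iic (n : ℝ)) = Set.univ := by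
      apply Set.eq_univ_of_forall
      intro x
      obtain ⟨n, hn⟩ := exists_nat_ge x
      exact Set.mem_iUnion.2 ⟨n, hn⟩
    rw [h3, measure_univ] at h2
    exact one_ne_zero h2
  have hbdd : BddBelow {x : ℝ | G (Set.Iic x) ≠ 0} := ⟨0, fun x hx => hS0 x hx⟩
  obtain ⟨s, hs⟩ : ∃ s, s = sInf {x : ℝ | G (Set.Iic x) ≠ 0} := ⟨_, rfl⟩
  have hup : ∀ x, s < x → G (Set.Ici x) = 0 := by
    intro x hx
    rw [hs] at hx
    obtain ⟨y, hy, hyx⟩ := (csInf_lt_iff hbdd hne).1 hx
    exact hcon y x (hS0 y hy) hyx hy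
  have hlow : ∀ x, x < s → G (Set.Iic x) = 0 := by
    intro x hx
    by_contra hne'
    rw [hs] at hx
    exact absurd (csInf_le hbdd hne') (not_le.2 hx)
  have h1 : G (Set.Iio s) = 0 := by
    refine measure_mono_null ?_ (measure_iUnion_null fun n : ℕ => hlow (s - 1 / (n + 1)) (by
      have : (0 : ℝ) < 1 / (n + 1) := by positivity
      linarith))
    intro y hy
    obtain ⟨n, hn⟩ := exists_nat_one_div_lt (sub_pos.2 (show y < s from hy))
    refine Set.mem_iUnion.2 ⟨n, ?_⟩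
    change y ≤ s - 1 / (n + 1)
    linarith
  have h2 : G (Set.Ioi s) = 0 := by
    refine measure_mono_null ?_ (measure_iUnion_null fun n : ℕ => hup (s + 1 / (n + 1)) (by
      have : (0 : ℝ) < 1 / (n + 1) := by positivity
      linarith))
    intro y hy
    obtain ⟨n, hn⟩ := exists_nat_one_div_lt (sub_pos.2 (show s < y from hy))
    refine Set.mem_iUnion.2 ⟨n, ?_⟩
    change s + 1 / (n + 1) ≤ y
    linarith
  have h3 : G (Set.Iio s ∪ {s} ∪ Set.Ioi s) = 0 := by
    rw [measure_union_null_iff, measure_union_null_iff]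
    exact ⟨⟨h1, ha s⟩, h2⟩
  have h4 : Set.Iio s ∪ {s} ∪ Set.Ioi s = Set.univ := by
    apply Set.eq_univ_of_forall
    intro x
    rcases lt_trichotomy x s with h | h | h
    · exact Or.inl (Or.inl h)
    · exact Or.inl (Or.inr h)
    · exact Or.inr h
  rw [h4, measure_univ] at h3
  exact one_ne_zero h3

end Vale.Agent.P158
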