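import Vale.Agent.P158.Defs

/-! P158, row BI: the two ends of a bigeodesic -/

namespace Vale.Agent.P158

open Finset MeasureTheory ProbabilityTheory Filter

namespace Bi

theorem adj_symm {u v : V} (h : Adj u v) : Adj v u := by
  unfold Adj at h ⊢
  rw [abs_sub_comm v.1, abs_sub_comm v.2]
  exact h

theorem sub (t : Sym2 V → ℝ) (x y : V) :
    {w | ∃ (n : ℕ) (p : ℕ → V), p 0 = x ∧ p n = y ∧ (∀ i < n, Adj (p i) (p (i + 1))) ∧
      w = ∑ i ∈ range n, t s(p i, p (i + 1))} ⊆
    {w | ∃ (n : ℕ) (p : ℕ → V), p 0 = y ∧ p n = x ∧ (∀ i < n, Adj (p i) (p (i + 1))) ∧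
      w = ∑ i ∈ range n, t s(p i, p (i + 1))} := by
  rintro w ⟨n, p, h0, hn, hadj, rfl⟩
  refine ⟨n, fun i => p (n - i), by simpa using hn, by simpa using h0, fun i hi => ?_, ?_⟩
  · have h1 : n - i = (n - (i + 1)) + 1 := by omega
    simp only
    rw [h1]
    exact adj_symm (hadj _ (by omega))
  · rw [← Finset.sum_range_reflect]
    refine Finset.sum_congr rfl fun i hi => ?_
    have hi' := Finset.mem_range.1 hi
    have h1 : n - 1 - i + 1 = n - i := by omega
    have h2 : n - 1 - i = n - (i + 1) := by omega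
    rw [h1, h2, Sym2.eq_swap]

theorem T_symm (t : Sym2 V → ℝ) (x y : V) : T t x y = T t y x := by
  unfold T
  congr 1
  exact Set.Subset.antisymm (sub t x y) (sub t y x)

end Bi

theorem ends {t : Sym2 V → ℝ} {v : ℤ → V} (hv : IsBigeodesic t v) :
    IsRay t (fun i => v i) ∧ IsRay t (fun i => v (-(i : ℤ))) := by
  obtain ⟨hinj, hadj, hgeo⟩ := hv
  refine ⟨⟨fun i j hij => ?_, fun i => ?_, fun i j hij => ?_⟩,
    ⟨fun i j hij => ?_, fun i => ?_, fun i j hij => ?_⟩⟩
  · have := hinj hij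
    exact_mod_cast this
  · have := hadj i
    push_cast
    exact this
  · rw [← hgeo i j (by exact_mod_cast hij)]
    refine Finset.sum_bij (fun (k : ℕ) _ => (k : ℤ)) ?_ ?_ ?_ ?_
    · intro k hk
      rw [Finset.mem_Ico] at hk ⊢
      omega
    · intro k _ l _ h
      exact_mod_cast h
    · intro l hl
      rw [Finset.mem_Ico] at hl
      exact ⟨l.toNat, by rw [Finset.mem_Ico]; omega, by omega⟩
    · intro k _
      push_cast
      rfl
  · have := hinj hij
    omega
  · have h := Bi.adj_symm (hadj (-((i : ℤ) + 1)))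
    have h1 : -((i : ℤ) + 1) + 1 = -(i : ℤ) := by ring
    rw [h1] at h
    push_cast
    exact h
  · rw [Bi.T_symm, ← hgeo (-(j : ℤ)) (-(i : ℤ)) (by omega)]
    refine Finset.sum_bij (fun (k : ℕ) _ => -((k : ℤ) + 1)) ?_ ?_ ?_ ?_
    · intro k hk
      rw [Finset.mem_Ico] at hk ⊢
      omega
    · intro k _ l _ h
      omega
    · intro l hl
      rw [Finset.mem_Ico] at hl
      exact ⟨(-l - 1).toNat, by rw [Finset.mem_Ico]; omega, by omega⟩
    · intro k _
      have h1 : -((k : ℤ) + 1) + 1 = -(k : ℤ) := by ring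
      rw [h1, Sym2.eq_swap]
      push_cast
      rfl

end Vale.Agent.P158
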