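import Vale.Agent.P158.Defs2

/-! P158, row CARD2. -/

namespace Vale.Agent.P158

open Finset

theorem card2 (g : ℤ → ℤ) (X : ℤ) (L h : ℕ) :
    #(High2 g X L h ∪ Low2 g X L h) ≤
      L * (2 * h + 1) + L * (2 * h) + ((2 * h + 1) + (2 * h + 1) + L + L) := by
  have c1 : #(Ico X (X + L)) = L := by
    rw [Int.card_Ico]
    omega
  have c2 : #(Icc (-(h : ℤ)) h) = 2 * h + 1 := by
    rw [Int.card_Icc]
    omega
  have c3 : #(Ioo X (X + L)) ≤ L := by
    rw [Int.card_Ioo]
    omega
  have c4 : #(Ico (-(h : ℤ)) h) = 2 * h := by
    rw [Int.card_Ico]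
    omega
  have hH : #(High2 g X L h) ≤ L * (2 * h + 1) + L * (2 * h) := by
    refine (card_union_le _ _).trans (add_le_add ?_ ?_)
    · refine card_image_le.trans ?_
      rw [card_product, c1, c2]
    · refine card_image_le.trans ?_
      rw [card_product, c4]
      exact Nat.mul_le_mul_right _ c3
  have hL : #(Low2 g X L h) ≤ (2 * h + 1) + (2 * h + 1) + L + L := by
    refine (card_union_le _ _).trans (add_le_add ?_ ?_)
    · refine (card_union_le _ _).trans (add_le_add ?_ ?_)
      · refine (card_union_le _ _).trans (add_le_add ?_ ?_)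
        · exact card_image_le.trans c2.le
        · exact card_image_le.trans c2.le
      · exact card_image_le.trans c1.le
    · exact card_image_le.trans c1.le
  exact (card_union_le _ _).trans (add_le_add hH hL)

end Vale.Agent.P158
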