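import Vale.Agent.P158.Prob

/-! P158, row U1: `N` independent block events, none of which occurs. -/

namespace Vale.Agent.P158

open Finset MeasureTheory ProbabilityTheory Filter

/-- [U1] U1.lean: N independent events, none of which occurs -/
theorem none_le {Ω ι : Type*} [MeasurableSpace Ω] {P : Measure Ω} [IsProbabilityMeasure P]
    {t : ι → Ω → ℝ} (hmeas : ∀ e, Measurable (t e)) (hind : iIndepFun t P) (A : ι → Set ℝ)
    (hA : ∀ e, MeasurableSet (A e)) (N : ℕ) (B : ℕ → Finset ι)
    (hB : ∀ i < N, ∀ j < N, i ≠ j → Disjoint (B i) (B j)) (p : ENNReal)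
    (hp : ∀ i < N, p ≤ ∏ e ∈ B i, P (t e ⁻¹' A e)) :
    P {ω | ∀ i < N, ¬ ∀ e ∈ B i, t e ω ∈ A e} ≤ (1 - p) ^ N := by
  set B' : ℕ → Finset ι := fun i => if i < N then B i else ∅ with hB'
  have hB1 : ∀ i, i < N → B' i = B i := fun i hi => if_pos hi
  have hdis : Pairwise (Function.onFun Disjoint B') := by
    intro i j hij
    show Disjoint (B' i) (B' j)
    by_cases hi : i < N
    · by_cases hj : j < N
      · rw [hB1 i hi, hB1 j hj]
        exact hB i hi j hj hij
      · have : B' j = ∅ := if_neg hj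
        rw [this]
        exact Finset.disjoint_empty_right _
    · have : B' i = ∅ := if_neg hi
      rw [this]
      exact Finset.disjoint_empty_left _
  have h1 : iIndepSet (fun k => Prob.E t A (B' k)) P := Prob.indep_E hmeas hind hA hdis
  have h2 : {ω | ∀ i < N, ¬ ∀ e ∈ B i, t e ω ∈ A e} =
      ⋂ i ∈ range N, (Prob.E t A (B' i))ᶜ := by
    ext ω
    simp only [Set.mem_ofPred_eq, Set.mem_iInter, mem_range, Set.mem_compl_iff, Prob.E]
    refine forall_congr' fun i => forall_congr' fun hi => not_congr ?_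
    rw [hB1 i hi]
    rfl
  have h3 : P (⋂ i ∈ range N, (Prob.E t A (B' i))ᶜ) =
      ∏ i ∈ range N, P (Prob.E t A (B' i))ᶜ := by
    refine iIndep.meas_biInter ((iIndepSet_iff_iIndep _ _).1 h1) fun i _ => ?_
    exact (MeasurableSpace.measurableSet_generateFrom (Set.mem_singleton _)).compl
  rw [h2, h3]
  refine (Finset.prod_le_prod' (g := fun _ => 1 - p) fun i hi => ?_).trans (by simp)
  rw [prob_compl_eq_one_sub (Prob.measurableSet_E hmeas hA _), Prob.measure_E hind hA]
  have hi' := mem_range.1 hi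
  rw [hB1 i hi']
  exact tsub_le_tsub_left (hp i hi') 1

end Vale.Agent.P158
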