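import Mathlib

/-!
# P158 [U3]: approximation of a line by a rational line
-/

namespace Vale.Agent.P158

theorem approx {α β : ℝ} (h0 : 0 ≤ α) (h1 : α ≤ 1) {Q : ℕ} (hQ : 1 ≤ Q) (hβ : |β| ≤ Q - 1) :
    ∃ p : ℕ, p ≤ Q ∧ ∃ q : ℤ, |q| ≤ Q ∧ ∀ x y : ℤ, 0 ≤ x → x ≤ Q →
      |(y : ℝ) - (⌊((p : ℝ) / Q) * x⌋ + q : ℤ)| ≤ |(y : ℝ) - (α * x + β)| + 3 := by
  have hQ0 : (0 : ℝ) < Q := by
    have : (1 : ℝ) ≤ Q := by exact_mod_cast hQ
    linarith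
  obtain ⟨hb1, hb2⟩ := abs_le.1 hβ
  refine ⟨⌊α * Q⌋₊, ?_, ⌊β⌋, ?_, ?_⟩
  · have h2 : α * Q ≤ Q := by nlinarith
    have h3 := Nat.floor_le_floor h2
    rwa [Nat.floor_natCast] at h3
  · rw [abs_le]
    constructor
    · have h2 : ((-(Q : ℤ) : ℤ) : ℝ) ≤ β := by push_cast; linarith
      exact Int.le_floor.2 h2
    · have h2 : ((⌊β⌋ : ℤ) : ℝ) ≤ ((Q : ℤ) : ℝ) := by
        push_cast
        linarith [Int.floor_le β]
      exact_mod_cast h2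
  · intro x y hx0 hxQ
    have hx0' : (0 : ℝ) ≤ x := by exact_mod_cast hx0
    have hxQ' : (x : ℝ) ≤ Q := by exact_mod_cast hxQ
    have hp0 : (0 : ℝ) ≤ α * Q := by positivity
    have hp1 : ((⌊α * Q⌋₊ : ℕ) : ℝ) ≤ α * Q := Nat.floor_le hp0
    have hp2 : α * Q < ((⌊α * Q⌋₊ : ℕ) : ℝ) + 1 := Nat.lt_floor_add_one _
    set p : ℝ := ((⌊α * Q⌋₊ : ℕ) : ℝ) with hp
    have h2 : p / Q * x ≤ α * x := by
      refine mul_le_mul_of_nonneg_right ?_ hx0'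
      rw [div_le_iff₀ hQ0]
      exact hp1
    have h3 : α * x - 1 ≤ p / Q * x := by
      have h4 : (α - p / Q) * Q ≤ 1 := by
        rw [sub_mul, div_mul_cancel₀ _ hQ0.ne']
        linarith
      have h5 : 0 ≤ α - p / Q := by
        rw [sub_nonneg, div_le_iff₀ hQ0]
        exact hp1
      nlinarith [mul_le_mul_of_nonneg_left hxQ' h5]
    have h4 := Int.floor_le (p / Q * x)
    have h5 := Int.lt_floor_add_one (p / Q * x)
    have h6 := Int.floor_le β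
    have h7 := Int.lt_floor_add_one β
    have h8 : |(α * x + β) - ((⌊p / Q * x⌋ + ⌊β⌋ : ℤ) : ℝ)| ≤ 3 := by
      push_cast
      rw [abs_le]
      constructor <;> linarith
    calc |(y : ℝ) - ((⌊p / Q * x⌋ + ⌊β⌋ : ℤ) : ℝ)|
        = |((y : ℝ) - (α * x + β)) + ((α * x + β) - ((⌊p / Q * x⌋ + ⌊β⌋ : ℤ) : ℝ))| := by
          congr 1
          ring
      _ ≤ |(y : ℝ) - (α * x + β)| + |(α * x + β) - ((⌊p / Q * x⌋ + ⌊β⌋ : ℤ) : ℝ)| :=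
          abs_add_le _ _
      _ ≤ |(y : ℝ) - (α * x + β)| + 3 := by linarith

end Vale.Agent.P158
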