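import Vale.Agent.P158.Main2
import Vale.Agent.P158.U1
import Vale.Agent.P158.U3

/-!
# P158: all lines simultaneously
-/

namespace Vale.Agent.P158

open Finset MeasureTheory ProbabilityTheory Filter

namespace Core4

/-- the staircases of the family -/
noncomputable def st (Q p : ℕ) (q : ℤ) : ℤ → ℤ := fun x => ⌊((p : ℝ) / Q) * x⌋ + q

theorem stair_st {Q p : ℕ} (hp : p ≤ Q) (q : ℤ) : Stair (st Q p q) := by
  have h := stair_floor (α := (p : ℝ) / Q) (by positivity)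
    (div_le_one_of_le₀ (by exact_mod_cast hp) (by positivity))
  intro x
  obtain ⟨h1, h2⟩ := h x
  simp only at h1 h2
  simp only [st]
  constructor <;> linarith

/-- one staircase, one window -/
theorem window {g : ℤ → ℤ} (hs : Stair g) {Ω : Type*} [MeasurableSpace Ω] {P : Measure Ω}
    [IsProbabilityMeasure P]
    {t : Sym2 V → Ω → ℝ} (hmeas : ∀ e, Measurable (t e)) (hind : iIndepFun t P) {G : Measure ℝ}
    [IsProbabilityMeasure G] (hG : ∀ e, P.map (t e) = G) {a b : ℝ} (X L h N : ℕ)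
    (hL1 : 1 ≤ L) :
    P {ω | ∀ j < N, ¬ Good2 g (fun e => t e ω) a b ((X + j * (L + 1) : ℕ) : ℤ) L h} ≤
      (1 - (G (Set.Iic a) * G (Set.Ici b)) ^ Main2.num L h) ^ N := by
  classical
  have hmono : ∀ k l, k < l → X + k * (L + 1) + L < X + l * (L + 1) := by
    intro k l hkl
    have : (k + 1) * (L + 1) ≤ l * (L + 1) := Nat.mul_le_mul_right _ hkl
    nlinarith
  obtain ⟨B, hB⟩ : ∃ B : ℕ → Finset (Sym2 V), B = fun k =>
    High2 g ((X + k * (L + 1) : ℕ) : ℤ) L h ∪ Low2 g ((X + k * (L + 1) : ℕ) : ℤ) L h := ⟨_, rfl⟩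
  have hdis : ∀ k l, k ≠ l → Disjoint (B k) (B l) := by
    intro k l hkl
    rw [hB]
    rcases Nat.lt_or_gt_of_ne hkl with h | h
    · exact disj2 g (by have := hmono k l h; exact_mod_cast this)
    · exact (disj2 g (by have := hmono l k h; exact_mod_cast this)).symm
  let A : Sym2 V → Set ℝ := fun e =>
    if ∃ l : ℕ, e ∈ High2 g ((X + l * (L + 1) : ℕ) : ℤ) L h then Set.Ici b else Set.Iic a
  have hA : ∀ e, MeasurableSet (A e) := by
    intro e
    simp only [A]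
    split_ifs
    · exact measurableSet_Ici
    · exact measurableSet_Iic
  have hPA : ∀ e, G (Set.Iic a) * G (Set.Ici b) ≤ P (t e ⁻¹' A e) := by
    intro e
    rw [← Measure.map_apply (hmeas e) (hA e), hG e]
    simp only [A]
    split_ifs
    · exact mul_le_of_le_one_left' prob_le_one
    · exact mul_le_of_le_one_right' prob_le_one
  have hprod : ∀ k, (G (Set.Iic a) * G (Set.Ici b)) ^ Main2.num L h ≤
      ∏ e ∈ B k, P (t e ⁻¹' A e) := by
    intro k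
    have hcard : #(B k) ≤ Main2.num L h := by
      rw [hB]
      exact card2 g _ _ _
    calc (G (Set.Iic a) * G (Set.Ici b)) ^ Main2.num L h
        ≤ (G (Set.Iic a) * G (Set.Ici b)) ^ #(B k) :=
          pow_le_pow_right_of_le_one' (mul_le_one' prob_le_one prob_le_one) hcard
      _ = ∏ e ∈ B k, (G (Set.Iic a) * G (Set.Ici b)) := by
          rw [prod_const]
      _ ≤ _ := prod_le_prod' fun e _ => hPA e
  refine le_trans (measure_mono ?_) (none_le hmeas hind A hA N B (fun i _ j _ hij => hdis i j hij) _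
    (fun k _ => hprod k))
  intro ω hω k hk hall
  refine hω k hk ⟨fun e he => ?_, fun e he => ?_⟩
  · have h1 := hall e (by rw [hB]; exact mem_union_left _ he)
    simp only [A] at h1
    rw [if_pos ⟨k, he⟩] at h1
    exact h1
  · have h1 := hall e (by rw [hB]; exact mem_union_right _ he)
    simp only [A] at h1
    rw [if_neg] at h1
    · exact h1
    · rintro ⟨l, hl⟩
      by_cases hkl : k = l
      · subst hkl
        exact disjoint_left.1 (high_low2 hs _ _ _ hL1) hl he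
      · have h2 := hdis k l hkl
        rw [hB] at h2
        exact disjoint_left.1 h2 (mem_union_right _ he) (mem_union_left _ hl)

/-- all staircases of the family have a good block in the window -/
def Fine (t : Sym2 V → ℝ) (a b : ℝ) (X L h N Q : ℕ) : Prop :=
  ∀ p ≤ Q, ∀ q : ℤ, |q| ≤ Q → ∃ j < N, Good2 (st Q p q) t a b ((X + j * (L + 1) : ℕ) : ℤ) L h

/-- the probabilistic part -/
theorem fam_ae {Ω : Type*} [MeasurableSpace Ω] {P : Measure Ω}
    [IsProbabilityMeasure P]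
    {t : Sym2 V → Ω → ℝ} (hmeas : ∀ e, Measurable (t e)) (hind : iIndepFun t P) {G : Measure ℝ}
    [IsProbabilityMeasure G] (hG : ∀ e, P.map (t e) = G) {a b : ℝ} {X L h N Q : ℕ → ℕ}
    (hL1 : ∀ k, 1 ≤ L k)
    (hsum : ∑' k, (((Q k + 1) * (2 * Q k + 1) : ℕ) : ENNReal) *
      (1 - (G (Set.Iic a) * G (Set.Ici b)) ^ Main2.num (L k) (h k)) ^ N k ≠ ⊤) :
    ∀ᵐ ω ∂P, ∀ᶠ k in atTop, Fine (fun e => t e ω) a b (X k) (L k) (h k) (N k) (Q k) := by
  obtain ⟨S, hS⟩ : ∃ S : ℕ → Finset (ℕ × ℤ), S = fun k =>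
    range (Q k + 1) ×ˢ Icc (-(Q k : ℤ)) (Q k) := ⟨_, rfl⟩
  obtain ⟨E, hE⟩ : ∃ E : ℕ → ℕ × ℤ → Set Ω, E = fun k pq =>
    {ω | ∀ j < N k, ¬ Good2 (st (Q k) pq.1 pq.2) (fun e => t e ω) a b
      ((X k + j * (L k + 1) : ℕ) : ℤ) (L k) (h k)} := ⟨_, rfl⟩
  have hcard : ∀ k, #(S k) = (Q k + 1) * (2 * Q k + 1) := by
    intro k
    rw [hS]
    simp only [card_product, card_range, Int.card_Icc]
    congr 1
    omega
  have hle : ∀ k, P (⋃ pq ∈ S k, E k pq) ≤ (((Q k + 1) * (2 * Q k + 1) : ℕ) : ENNReal) *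
      (1 - (G (Set.Iic a) * G (Set.Ici b)) ^ Main2.num (L k) (h k)) ^ N k := by
    intro k
    refine (measure_biUnion_finset_le _ _).trans ?_
    rw [← hcard k, ← nsmul_eq_mul]
    refine sum_le_card_nsmul _ _ _ fun pq hpq => ?_
    rw [hE]
    refine window (stair_st ?_ _) hmeas hind hG _ _ _ _ (hL1 k)
    rw [hS] at hpq
    have := (mem_product.1 hpq).1
    rw [mem_range] at this
    omega
  have h1 : ∑' k, P (⋃ pq ∈ S k, E k pq) ≠ ⊤ :=
    ne_top_of_le_ne_top hsum (ENNReal.tsum_le_tsum hle)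
  filter_upwards [ae_eventually_notMem h1] with ω hω
  filter_upwards [hω] with k hk p hp q hq
  by_contra hcon
  apply hk
  rw [Set.mem_iUnion₂]
  refine ⟨(p, q), ?_, ?_⟩
  · rw [hS]
    obtain ⟨h2, h3⟩ := abs_le.1 hq
    exact mem_product.2 ⟨mem_range.2 (by omega), mem_Icc.2 ⟨h2, h3⟩⟩
  · rw [hE]
    intro j hj hgood
    exact hcon ⟨j, hj, hgood⟩

/-- the deterministic part -/
theorem no_ray {t : Sym2 V → ℝ} (ht : ∀ e, 0 ≤ t e) {a b : ℝ}
    (ha : 0 ≤ a) (hab : a < b) {X L h N Q : ℕ → ℕ} (hL1 : ∀ k, 1 ≤ L k)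
    (hL : ∀ k : ℕ, a * (L k + 4 * h k + 2) < b * (L k - 2 * h k)) (hkX : ∀ k, k ≤ X k)
    (hQ : ∀ k, X k + N k * (L k + 1) ≤ Q k)
    (hgood : ∀ᶠ k in atTop, Fine t a b (X k) (L k) (h k) (N k) (Q k))
    {f : ℕ → ℝ}
    (hf : ∀ᶠ k in atTop, ∀ x : ℕ, X k ≤ x → x ≤ Q k → f x + 3 ≤ h k)
    {α β : ℝ} (h0 : 0 ≤ α) (h1 : α ≤ 1)
    {v : ℕ → V} (hv : IsRay t v)
    (hlim : Tendsto (fun i => (v i).1) atTop atTop)
    (hev : ∀ᶠ i in atTop, |((v i).2 : ℝ) - (α * (v i).1 + β)| ≤ f (v i).1.natAbs) : False := by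
  obtain ⟨i0, hi0⟩ := hev.exists_forall_of_atTop
  obtain ⟨m, hm⟩ := exists_nat_gt |β|
  obtain ⟨k, ⟨hgk, hfk⟩, hk1, hk2⟩ := ((hgood.and hf).and
    ((eventually_ge_atTop (v i0).1.toNat).and (eventually_ge_atTop (m + 1)))).exists
  have hkQ : k ≤ Q k := by
    have := hkX k
    have := hQ k
    omega
  have hβ : |β| ≤ (Q k : ℝ) - 1 := by
    have h2 : ((m + 1 : ℕ) : ℝ) ≤ Q k := by exact_mod_cast hk2.trans hkQ
    push_cast at h2
    linarith
  obtain ⟨p, hp, q, hq, hpq⟩ := approx h0 h1 (by omega : 1 ≤ Q k) hβ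
  obtain ⟨j0, hj0, hg⟩ := hgk p hp q hq
  obtain ⟨Y, hY⟩ : ∃ Y, Y = X k + j0 * (L k + 1) := ⟨_, rfl⟩
  rw [← hY] at hg
  have hYX : X k ≤ Y := by omega
  have hYQ : Y + L k ≤ Q k := by
    have h2 : (j0 + 1) * (L k + 1) ≤ N k * (L k + 1) := Nat.mul_le_mul_right _ hj0
    have h3 := hQ k
    nlinarith
  have hX : (v i0).1 ≤ (Y : ℤ) := by
    have := hkX k
    omega
  have hstep : ∀ i, |(v (i + 1)).1 - (v i).1| ≤ 1 := by
    intro i
    have h1 := hv.2.1 i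
    unfold Adj at h1
    have h2 := abs_nonneg ((v i).2 - (v (i + 1)).2)
    rw [abs_sub_comm]
    linarith
  obtain ⟨i, j, h1, h2, h3, h4, h5⟩ := ivt2 hstep hlim hX (hL1 k)
  have h5' : ∀ l, i ≤ l → l ≤ j → (Y : ℤ) ≤ (v l).1 ∧ (v l).1 ≤ Y + L k := by
    intro l hl1 hl2
    rcases Nat.lt_or_ge i l with h6 | h6
    · rcases Nat.lt_or_ge l j with h7 | h7
      · obtain ⟨h8, h9⟩ := h5 l h6 h7
        exact ⟨h8.le, h9.le⟩
      · have : l = j := by omega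
        subst this
        rw [h4]
        constructor <;> omega
    · have : l = i := by omega
      subst this
      rw [h3]
      constructor <;> omega
  refine cross2 (stair_st hp q) ht ha hab (hL k) hg hv h2 h3 h4 h5 (fun l hl1 hl2 => ?_)
  obtain ⟨h6, h7⟩ := h5' l hl1 hl2
  have h8 := hi0 l (h1.trans hl1)
  have h9 := hpq (v l).1 (v l).2 (by omega) (by omega)
  have h10 := hfk (v l).1.natAbs (by omega) (by omega)
  have h11 : (((v l).2 - st (Q k) p q (v l).1).natAbs : ℝ) ≤ h k := by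
    rw [Nat.cast_natAbs]
    push_cast
    simp only [st]
    push_cast at h9
    push_cast
    linarith
  exact_mod_cast h11

/-- the statement for one automorphism -/
theorem one {Ω : Type*} [MeasurableSpace Ω] {P : Measure Ω}
    [IsProbabilityMeasure P]
    {t : Sym2 V → Ω → ℝ} (hmeas : ∀ e, Measurable (t e)) (hind : iIndepFun t P) {G : Measure ℝ}
    [IsProbabilityMeasure G] (hG0 : G (Set.Iio 0) = 0) (hG : ∀ e, P.map (t e) = G)
    {a b : ℝ} (ha : 0 ≤ a) (hab : a < b) {X L h N Q : ℕ → ℕ} (hL1 : ∀ k, 1 ≤ L k)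
    (hL : ∀ k : ℕ, a * (L k + 4 * h k + 2) < b * (L k - 2 * h k)) (hkX : ∀ k, k ≤ X k)
    (hQ : ∀ k, X k + N k * (L k + 1) ≤ Q k) {f : ℕ → ℝ}
    (hf : ∀ᶠ k in atTop, ∀ x : ℕ, X k ≤ x → x ≤ Q k → f x + 3 ≤ h k)
    (hsum : ∑' k, (((Q k + 1) * (2 * Q k + 1) : ℕ) : ENNReal) *
      (1 - (G (Set.Iic a) * G (Set.Ici b)) ^ Main2.num (L k) (h k)) ^ N k ≠ ⊤)
    (ρ : V ≃ V) (hρ : ∀ u v, Adj (ρ u) (ρ v) ↔ Adj u v) :
    ∀ᵐ ω ∂P, ∀ v : ℕ → V, IsRay (fun e => t e ω) v →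
      Tendsto (fun i => (ρ (v i)).1) atTop atTop → ∀ α β : ℝ, 0 ≤ α → α ≤ 1 →
      ¬ ∀ᶠ i in atTop, |((ρ (v i)).2 : ℝ) - (α * (ρ (v i)).1 + β)| ≤ f (ρ (v i)).1.natAbs := by
  have hinj : Function.Injective (Sym2.map ρ.symm) := Sym2.map.injective ρ.symm.injective
  have h1 := fam_ae (t := fun e => t (Sym2.map ρ.symm e)) (fun e => hmeas _)
    (hind.precomp hinj) (fun e => hG _) (X := X) hL1 hsum
  have h2 : ∀ᵐ ω ∂P, ∀ e, 0 ≤ t e ω := by
    rw [ae_all_iff]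
    intro e
    have h3 : P (t e ⁻¹' Set.Iio 0) = 0 := by
      rw [← Measure.map_apply (hmeas e) measurableSet_Iio, hG e, hG0]
    rw [ae_iff]
    simpa [Set.preimage, not_le] using h3
  filter_upwards [h1, h2] with ω hω h0 v hv hlim α β hα0 hα1 hev
  exact no_ray (fun e => h0 _) ha hab hL1 hL hkX hQ hω hf hα0 hα1 (ray_map ρ hρ hv) hlim hev

end Core4

/-- All lines simultaneously, for given scales. -/
theorem core4 {G : Measure ℝ} [IsProbabilityMeasure G] (hG0 : G (Set.Iio 0) = 0)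
    {a b : ℝ} (ha : 0 ≤ a) (hab : a < b) {X L h N Q : ℕ → ℕ} (hL1 : ∀ k, 1 ≤ L k)
    (hL : ∀ k : ℕ, a * (L k + 4 * h k + 2) < b * (L k - 2 * h k)) (hkX : ∀ k, k ≤ X k)
    (hQ : ∀ k, X k + N k * (L k + 1) ≤ Q k) {f : ℕ → ℝ}
    (hf : ∀ᶠ k in atTop, ∀ x : ℕ, X k ≤ x → x ≤ Q k → f x + 3 ≤ h k)
    (hsum : ∑' k, (((Q k + 1) * (2 * Q k + 1) : ℕ) : ENNReal) *
      (1 - (G (Set.Iic a) * G (Set.Ici b)) ^ Main2.num (L k) (h k)) ^ N k ≠ ⊤) :
      ∀ (Ω : Type) [MeasurableSpace Ω] (P : Measure Ω) [IsProbabilityMeasure P]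
        (t : Sym2 V → Ω → ℝ), (∀ e, Measurable (t e)) → (∀ e, P.map (t e) = G) → iIndepFun t P →
        ∀ᵐ ω ∂P, ∀ v : ℕ → V, IsRay (fun e => t e ω) v → ∀ α c : ℝ, |α| ≤ 1 →
          (∃ᶠ i in atTop, f (v i).1.natAbs < |((v i).2 : ℝ) - (α * (v i).1 + c)|) ∧
          (∃ᶠ i in atTop, f (v i).2.natAbs < |((v i).1 : ℝ) - (α * (v i).2 + c)|) := by
  intro Ω _ P _ t hmeas hlaw hind
  have hev : ∀ (w : V ≃ V), (∀ u v, Adj (w u) (w v) ↔ Adj u v) → ∀ᵐ ω ∂P, ∀ v : ℕ → V,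
      IsRay (fun e => t e ω) v → ∀ α c : ℝ, |α| ≤ 1 →
      ¬ ∀ᶠ i in atTop, |((w (v i)).2 : ℝ) - (α * (w (v i)).1 + c)| ≤
        f (w (v i)).1.natAbs := by
    intro w hw
    have key : ∀ᵐ ω ∂P, ∀ p q : ℤˣ, ∀ v : ℕ → V, IsRay (fun e => t e ω) v →
      Tendsto (fun i => ((w.trans (Main2.sg p (p * q))) (v i)).1) atTop atTop →
      ∀ α β : ℝ, 0 ≤ α → α ≤ 1 →
      ¬ ∀ᶠ i in atTop, |(((w.trans (Main2.sg p (p * q))) (v i)).2 : ℝ) -
        (α * ((w.trans (Main2.sg p (p * q))) (v i)).1 + β)| ≤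
          f ((w.trans (Main2.sg p (p * q))) (v i)).1.natAbs := by
      rw [ae_all_iff]
      intro p
      rw [ae_all_iff]
      intro q
      exact Core4.one hmeas hind hG0 hlaw ha hab hL1 hL hkX hQ hf hsum
        (w.trans (Main2.sg p (p * q))) (fun u v => (Main2.adj_sg _ _ _ _).trans (hw u v))
    filter_upwards [key] with ω h12 v hv α c hα hevt
    obtain ⟨q, hq⟩ : ∃ q : ℤˣ, α = (q : ℤ) * |α| := by
      rcases le_or_gt 0 α with h | h
      · exact ⟨1, by simp [abs_of_nonneg h]⟩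
      · exact ⟨-1, by simp [abs_of_neg h]⟩
    obtain ⟨i0, hi0⟩ := hevt.exists_forall_of_atTop
    have hbound : ∀ i ≥ i0, (w (v i)).2.natAbs ≤
        ⌈f (w (v i)).1.natAbs⌉₊ + ⌈|c|⌉₊ + (w (v i)).1.natAbs := by
      intro i hi
      have h3 := hi0 i hi
      have h4 : |((w (v i)).2 : ℝ)| ≤ |((w (v i)).2 : ℝ) - (α * (w (v i)).1 + c)| +
          |α * (w (v i)).1 + c| := by
        have := abs_add_le (((w (v i)).2 : ℝ) - (α * (w (v i)).1 + c)) (α * (w (v i)).1 + c)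
        rwa [sub_add_cancel] at this
      have h5 : |α * ((w (v i)).1 : ℝ)| ≤ |((w (v i)).1 : ℝ)| := by
        rw [abs_mul]
        exact mul_le_of_le_one_left (abs_nonneg _) hα
      have h6 := abs_add_le (α * ((w (v i)).1 : ℝ)) c
      have h7 : ((w (v i)).2.natAbs : ℝ) ≤
          (⌈f (w (v i)).1.natAbs⌉₊ : ℝ) + (⌈|c|⌉₊ : ℝ) + ((w (v i)).1.natAbs : ℝ) := by
        have h8 := Nat.le_ceil (f (w (v i)).1.natAbs)
        have h9 := Nat.le_ceil |c|
        have e1 : ((w (v i)).2.natAbs : ℝ) = |((w (v i)).2 : ℝ)| := by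
          rw [Nat.cast_natAbs]
          push_cast
          rfl
        have e2 : ((w (v i)).1.natAbs : ℝ) = |((w (v i)).1 : ℝ)| := by
          rw [Nat.cast_natAbs]
          push_cast
          rfl
        rw [e1, e2]
        linarith
      exact_mod_cast h7
    have hadj : ∀ i, Adj (w (v i)) (w (v (i + 1))) := fun i => (hw _ _).2 (hv.2.1 i)
    have habs : ∀ (p : ℤˣ) (x y : ℤ),
        |(((p * q : ℤˣ) : ℤ) * y : ℤ) - (|α| * (((p : ℤ) * x : ℤ) : ℝ) +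
          ((p : ℤ) : ℝ) * ((q : ℤ) : ℝ) * c)| = |(y : ℝ) - (α * x + c)| := by
      intro p x y
      have h7 : ((((p * q : ℤˣ) : ℤ) * y : ℤ) : ℝ) - (|α| * (((p : ℤ) * x : ℤ) : ℝ) +
          ((p : ℤ) : ℝ) * ((q : ℤ) : ℝ) * c) =
          ((p : ℤ) : ℝ) * ((q : ℤ) : ℝ) * ((y : ℝ) - (α * x + c)) := by
        have hqq : ((q : ℤ) : ℝ) * ((q : ℤ) : ℝ) = 1 := by
          rcases Int.units_eq_one_or q with rfl | rfl <;> simp
        have h8 : ((q : ℤ) : ℝ) * α = |α| := by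
          calc ((q : ℤ) : ℝ) * α = ((q : ℤ) : ℝ) * (((q : ℤ) : ℝ) * |α|) := by rw [← hq]
            _ = |α| := by rw [← mul_assoc, hqq, one_mul]
        rw [← h8]
        push_cast
        ring
      rw [h7, abs_mul, abs_mul]
      rcases Int.units_eq_one_or p with rfl | rfl <;> rcases Int.units_eq_one_or q with rfl | rfl <;>
        simp
    rcases exit (fun n => ⌈f n⌉₊ + ⌈|c|⌉₊ + n) (w.injective.comp hv.1) hadj i0 hbound with h | h
    · refine h12 1 q v hv ?_ |α| (((1 : ℤˣ) : ℤ) * ((q : ℤ) : ℝ) * c) (abs_nonneg _) hα ?_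
      · refine h.congr fun i => ?_
        change (w (v i)).1 = ((1 : ℤˣ) : ℤ) * (w (v i)).1
        simp
      · refine hevt.mono fun i hi => ?_
        change |((((1 : ℤˣ) * q : ℤˣ) : ℤ) * (w (v i)).2 : ℤ) -
          (|α| * (((((1 : ℤˣ) : ℤ) * (w (v i)).1 : ℤ)) : ℝ) +
            (((1 : ℤˣ) : ℤ) : ℝ) * ((q : ℤ) : ℝ) * c)| ≤
          f (((1 : ℤˣ) : ℤ) * (w (v i)).1).natAbs
        rw [habs]
        simpa using hi
    · refine h12 (-1) q v hv ?_ |α| (((-1 : ℤˣ) : ℤ) * ((q : ℤ) : ℝ) * c) (abs_nonneg _) hα ?_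
      · refine (tendsto_neg_atBot_atTop.comp h).congr fun i => ?_
        change -(w (v i)).1 = ((-1 : ℤˣ) : ℤ) * (w (v i)).1
        simp
      · refine hevt.mono fun i hi => ?_
        change |((((-1 : ℤˣ) * q : ℤˣ) : ℤ) * (w (v i)).2 : ℤ) -
          (|α| * (((((-1 : ℤˣ) : ℤ) * (w (v i)).1 : ℤ)) : ℝ) +
            (((-1 : ℤˣ) : ℤ) : ℝ) * ((q : ℤ) : ℝ) * c)| ≤
          f (((-1 : ℤˣ) : ℤ) * (w (v i)).1).natAbs
        rw [habs]
        have hneg : ((((-1 : ℤˣ) : ℤ)) * (w (v i)).1).natAbs = (w (v i)).1.natAbs := by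
          simp
        rw [hneg]
        exact hi
  filter_upwards [hev (Equiv.refl V) (fun u v => Iff.rfl), hev Main.sw Main.adj_sw] with ω h1 h2 v hv α c hα
  refine ⟨?_, ?_⟩
  · have := h1 v hv α c hα
    rw [not_eventually] at this
    exact this.mono fun i hi => not_le.1 hi
  · have := h2 v hv α c hα
    rw [not_eventually] at this
    exact this.mono fun i hi => not_le.1 hi

end Vale.Agent.P158
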