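import Vale.Agent.P158.Defs

/-!
P158, row CROSS: a geodesic ray does not cross a good block inside the strip.
-/

namespace Vale.Agent.P158

open Finset

namespace Cross

/-- there is a path from `x` to `y` of weight at most `c` -/
def Reach (t : Sym2 V → ℝ) (x y : V) (c : ℝ) : Prop :=
  ∃ (n : ℕ) (p : ℕ → V), p 0 = x ∧ p n = y ∧ (∀ i < n, Adj (p i) (p (i + 1))) ∧
    ∑ i ∈ range n, t s(p i, p (i + 1)) ≤ c

theorem refl (t : Sym2 V → ℝ) (x : V) : Reach t x x 0 :=
  ⟨0, fun _ => x, rfl, rfl, fun i hi => absurd hi (Nat.not_lt_zero i), by simp⟩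

theorem snoc {t : Sym2 V → ℝ} {x y z : V} {c a : ℝ} (h : Reach t x y c) (hyz : Adj y z)
    (ha : t s(y, z) ≤ a) : Reach t x z (c + a) := by
  obtain ⟨n, p, h0, hn, hadj, hsum⟩ := h
  let q : ℕ → V := fun i => if i ≤ n then p i else z
  have hq1 : ∀ i, i ≤ n → q i = p i := fun i hi => if_pos hi
  have hq2 : q (n + 1) = z := if_neg (by omega)
  refine ⟨n + 1, q, ?_, hq2, ?_, ?_⟩
  · rw [hq1 0 (Nat.zero_le _), h0]
  · intro i hi
    by_cases h1 : i < n
    · rw [hq1 i h1.le, hq1 (i + 1) (by omega)]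
      exact hadj i h1
    · have h2 : i = n := by omega
      subst h2
      rw [hq1 i le_rfl, hq2, hn]
      exact hyz
  · rw [sum_range_succ, hq1 n le_rfl, hq2, hn]
    refine add_le_add (le_trans (le_of_eq ?_) hsum) ha
    refine sum_congr rfl fun i hi => ?_
    have h1 := mem_range.1 hi
    rw [hq1 i h1.le, hq1 (i + 1) (by omega)]

theorem walk {t : Sym2 V → ℝ} {x : V} {c a : ℝ} (q : ℕ → V) (m : ℕ)
    (hq : ∀ k < m, Adj (q k) (q (k + 1)) ∧ t s(q k, q (k + 1)) ≤ a)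
    (h : Reach t x (q 0) c) : Reach t x (q m) (c + m * a) := by
  induction m with
  | zero => simpa using h
  | succ m ih =>
    have h1 := ih (fun k hk => hq k (by omega))
    have h2 := snoc h1 (hq m (Nat.lt_succ_self m)).1 (hq m (Nat.lt_succ_self m)).2
    have e : c + m * a + a = c + ((m + 1 : ℕ) : ℝ) * a := by push_cast; ring
    rwa [e] at h2

theorem T_le {t : Sym2 V → ℝ} (ht : ∀ e, 0 ≤ t e) {x y : V} {c : ℝ} (h : Reach t x y c) :
    T t x y ≤ c := by
  obtain ⟨n, p, h0, hn, hadj, hsum⟩ := h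
  refine le_trans (csInf_le ?_ ⟨n, p, h0, hn, hadj, rfl⟩) hsum
  refine ⟨0, ?_⟩
  rintro w ⟨n, p, _, _, _, rfl⟩
  exact sum_nonneg fun i _ => ht _

end Cross

open Cross

/-- [CROSS] Cross.lean: a geodesic ray does not cross a good block inside the strip. -/
theorem cross {t : Sym2 V → ℝ} (ht : ∀ e, 0 ≤ t e) {a b : ℝ} (ha : 0 ≤ a) {X : ℤ} {L h : ℕ}
    (hL : a * (L + 4 * h + 2) < b * L) (hg : Good t a b X L h) {v : ℕ → V} (hv : IsRay t v)
    {i j : ℕ} (hij : i ≤ j) (hi : (v i).1 = X) (hj : (v j).1 = X + L)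
    (hk : ∀ k, i ≤ k → k ≤ j → X ≤ (v k).1 ∧ (v k).1 ≤ X + L ∧ (v k).2.natAbs ≤ h) : False := by
  have hbL : 0 < b * L := lt_of_le_of_lt (by positivity) hL
  have hL0 : 0 < L := by
    rcases Nat.eq_zero_or_pos L with h0 | h0
    · rw [h0] at hbL
      simp at hbL
    · exact h0
  have hLr : (0 : ℝ) < L := by exact_mod_cast hL0
  have hb : 0 < b := by
    by_contra hcon
    have := mul_nonpos_of_nonpos_of_nonneg (not_lt.1 hcon) hLr.le
    linarith
  have hlt : i < j := by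
    rcases eq_or_lt_of_le hij with h1 | h1
    · subst h1
      rw [hi] at hj
      omega
    · exact h1
  -- lower bound
  have hstep : ∀ k ∈ Ico i j, b * ((((v (k + 1)).1 - (v k).1 : ℤ)) : ℝ) ≤
      t s(v k, v (k + 1)) := by
    intro k hk'
    obtain ⟨hk1, hk2⟩ := mem_Ico.1 hk'
    obtain ⟨h1, h2, h3⟩ := hk k hk1 hk2.le
    obtain ⟨h4, h5, h6⟩ := hk (k + 1) (by omega) (by omega)
    have hadj : |(v k).1 - (v (k + 1)).1| + |(v k).2 - (v (k + 1)).2| = 1 := hv.2.1 k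
    by_cases hle : (v (k + 1)).1 - (v k).1 ≤ 0
    · have h7 : ((((v (k + 1)).1 - (v k).1 : ℤ)) : ℝ) ≤ 0 := by exact_mod_cast hle
      exact le_trans (mul_nonpos_of_nonneg_of_nonpos hb.le h7) (ht _)
    · have h8 : (v (k + 1)).1 = (v k).1 + 1 := by
        have h9 := abs_nonneg ((v k).2 - (v (k + 1)).2)
        have h10 := neg_abs_le ((v k).1 - (v (k + 1)).1)
        omega
      have h11 : (v (k + 1)).2 = (v k).2 := by
        rw [h8] at hadj
        have e1 : (v k).1 - ((v k).1 + 1) = -1 := by ring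
        rw [e1, abs_neg, abs_one] at hadj
        have h12 : |(v k).2 - (v (k + 1)).2| = 0 := by omega
        have := abs_eq_zero.1 h12
        omega
      have h12 : s(v k, v (k + 1)) ∈ High X L h := by
        rw [High, mem_image]
        refine ⟨(v k), ?_, ?_⟩
        · rw [mem_product, mem_Ico, mem_Icc]
          omega
        · have e2 : v (k + 1) = ((v k).1 + 1, (v k).2) := Prod.ext h8 h11
          rw [e2]
      have h13 := hg.1 _ h12
      have h14 : (v (k + 1)).1 - (v k).1 = 1 := by omega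
      rw [h14, Int.cast_one, mul_one]
      exact h13
  have hlow : b * L ≤ T t (v i) (v j) := by
    rw [← hv.2.2 i j hlt]
    refine le_trans (le_of_eq ?_) (sum_le_sum hstep)
    rw [← mul_sum, ← Int.cast_sum, sum_Ico_sub (fun k => (v k).1) hij, hi, hj]
    congr 1
    rw [add_sub_cancel_left]
    rfl
  -- upper bound
  obtain ⟨_, _, hyi⟩ := hk i le_rfl hij
  obtain ⟨_, _, hyj⟩ := hk j hij le_rfl
  have hLow := hg.2
  have r1 := walk (t := t) (x := v i) (c := 0) (a := a) (fun k => (X, (v i).2 + k))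
    ((h : ℤ) + 1 - (v i).2).toNat (by
      intro k hk'
      refine ⟨?_, hLow _ ?_⟩
      · show |X - X| + |(v i).2 + (k : ℤ) - ((v i).2 + ((k + 1 : ℕ) : ℤ))| = 1
        have e : (v i).2 + (k : ℤ) - ((v i).2 + ((k + 1 : ℕ) : ℤ)) = -1 := by push_cast; ring
        rw [e, sub_self, abs_zero, abs_neg, abs_one, zero_add]
      · rw [Low, mem_union, mem_union]
        left; right
        rw [mem_image]
        refine ⟨(v i).2 + k, ?_, ?_⟩
        · rw [mem_Icc]
          omega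
        · have e : (v i).2 + ((k + 1 : ℕ) : ℤ) = (v i).2 + (k : ℤ) + 1 := by push_cast; ring
          rw [e])
    (by
      have e : ((X, (v i).2 + ((0 : ℕ) : ℤ)) : V) = v i := Prod.ext hi.symm (by simp)
      show Reach t (v i) (X, (v i).2 + ((0 : ℕ) : ℤ)) 0
      rw [e]
      exact refl t _)
  have e1 : ((X, (v i).2 + ((((h : ℤ) + 1 - (v i).2).toNat : ℕ) : ℤ)) : V) =
      (X + ((0 : ℕ) : ℤ), (h : ℤ) + 1) := by
    refine Prod.ext (by simp) ?_
    show (v i).2 + ((((h : ℤ) + 1 - (v i).2).toNat : ℕ) : ℤ) = (h : ℤ) + 1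
    omega
  have r1' : Reach t (v i) (X, (v i).2 + ((((h : ℤ) + 1 - (v i).2).toNat : ℕ) : ℤ))
    (0 + (((h : ℤ) + 1 - (v i).2).toNat : ℕ) * a) := r1
  rw [e1] at r1'
  have r2 := walk (t := t) (a := a) (fun k => (X + k, (h : ℤ) + 1)) L (by
      intro k hk'
      refine ⟨?_, hLow _ ?_⟩
      · show |X + (k : ℤ) - (X + ((k + 1 : ℕ) : ℤ))| + |(h : ℤ) + 1 - ((h : ℤ) + 1)| = 1
        have e : X + (k : ℤ) - (X + ((k + 1 : ℕ) : ℤ)) = -1 := by push_cast; ring
        rw [e, sub_self, abs_zero, abs_neg, abs_one, add_zero]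
      · rw [Low, mem_union, mem_union]
        left; left
        rw [mem_image]
        refine ⟨X + k, ?_, ?_⟩
        · rw [mem_Ico]
          omega
        · have e : X + ((k + 1 : ℕ) : ℤ) = X + (k : ℤ) + 1 := by push_cast; ring
          rw [e]) r1'
  have e2 : ((X + (L : ℤ), (h : ℤ) + 1) : V) = (X + L, (h : ℤ) + 1 - ((0 : ℕ) : ℤ)) := by
    refine Prod.ext rfl ?_
    simp
  have r2' : Reach t (v i) (X + (L : ℤ), (h : ℤ) + 1)
    (0 + (((h : ℤ) + 1 - (v i).2).toNat : ℕ) * a + L * a) := r2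
  rw [e2] at r2'
  have r3 := walk (t := t) (a := a) (fun k => (X + L, (h : ℤ) + 1 - k))
    ((h : ℤ) + 1 - (v j).2).toNat (by
      intro k hk'
      refine ⟨?_, hLow _ ?_⟩
      · show |X + (L : ℤ) - (X + L)| + |(h : ℤ) + 1 - (k : ℤ) - ((h : ℤ) + 1 - ((k + 1 : ℕ) : ℤ))| = 1
        have e : (h : ℤ) + 1 - (k : ℤ) - ((h : ℤ) + 1 - ((k + 1 : ℕ) : ℤ)) = 1 := by
          push_cast; ring
        rw [e, sub_self, abs_zero, abs_one, zero_add]
      · rw [Low, mem_union, mem_union]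
        right
        rw [mem_image]
        refine ⟨(h : ℤ) - k, ?_, ?_⟩
        · rw [mem_Icc]
          omega
        · have e : (h : ℤ) + 1 - ((k + 1 : ℕ) : ℤ) = (h : ℤ) - k := by push_cast; ring
          have e' : (h : ℤ) - k + 1 = (h : ℤ) + 1 - (k : ℤ) := by ring
          rw [e, e', Sym2.eq_swap]) r2'
  have e3 : ((X + (L : ℤ), (h : ℤ) + 1 - ((((h : ℤ) + 1 - (v j).2).toNat : ℕ) : ℤ)) : V) = v j := by
    refine Prod.ext hj.symm ?_
    show (h : ℤ) + 1 - ((((h : ℤ) + 1 - (v j).2).toNat : ℕ) : ℤ) = (v j).2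
    omega
  have r3' : Reach t (v i)
    (X + (L : ℤ), (h : ℤ) + 1 - ((((h : ℤ) + 1 - (v j).2).toNat : ℕ) : ℤ))
    (0 + (((h : ℤ) + 1 - (v i).2).toNat : ℕ) * a + L * a +
      (((h : ℤ) + 1 - (v j).2).toNat : ℕ) * a) := r3
  rw [e3] at r3'
  have hup := T_le ht r3'
  have hn1 : ((((h : ℤ) + 1 - (v i).2).toNat : ℕ) : ℝ) ≤ 2 * h + 1 := by
    have : ((h : ℤ) + 1 - (v i).2).toNat ≤ 2 * h + 1 := by omega
    exact_mod_cast this
  have hn2 : ((((h : ℤ) + 1 - (v j).2).toNat : ℕ) : ℝ) ≤ 2 * h + 1 := by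
    have : ((h : ℤ) + 1 - (v j).2).toNat ≤ 2 * h + 1 := by omega
    exact_mod_cast this
  nlinarith [mul_le_mul_of_nonneg_right hn1 ha, mul_le_mul_of_nonneg_right hn2 ha]

end Vale.Agent.P158
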