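import Vale.Agent.P158.Defs2
import Vale.Agent.P158.Cross

/-!
P158, row CROSS2: a geodesic ray does not cross a good block along a staircase.
-/

namespace Vale.Agent.P158

open Finset

namespace Cross2

theorem stair {g : ℤ → ℤ} (hs : Stair g) {t : Sym2 V → ℝ} {a : ℝ} {X : ℤ} {L h : ℕ}
    (hg : ∀ e ∈ Low2 g X L h, t e ≤ a) {x : V} {c : ℝ}
    (h0 : Cross.Reach t x (X, g X + h + 1) c) :
    ∀ m : ℕ, m ≤ L → Cross.Reach t x (X + m, g (X + m) + h + 1)
      (c + (m + (((g (X + m) - g X : ℤ)) : ℝ)) * a) := by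
  intro m
  induction m with
  | zero =>
    intro _
    simpa using h0
  | succ m ih =>
    intro hm
    have h1 := ih (by omega)
    have hmem1 : s(((X + (m : ℤ), g (X + m) + h + 1) : V), (X + m, g (X + m) + h + 2)) ∈
        Low2 g X L h := by
      rw [Low2, mem_union, mem_union, mem_union]
      left; right
      rw [mem_image]
      exact ⟨X + m, by rw [mem_Ico]; omega, rfl⟩
    have hmem2 : s(((X + (m : ℤ), g (X + m + 1) + h + 1) : V),
        (X + m + 1, g (X + m + 1) + h + 1)) ∈ Low2 g X L h := by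
      rw [Low2, mem_union, mem_union, mem_union]
      right
      rw [mem_image]
      exact ⟨X + m, by rw [mem_Ico]; omega, rfl⟩
    obtain ⟨s1, s2⟩ := hs (X + m)
    have e0 : X + ((m + 1 : ℕ) : ℤ) = X + m + 1 := by push_cast; ring
    rw [e0]
    by_cases hc : g (X + m + 1) = g (X + m)
    · rw [hc] at hmem2 ⊢
      have h2 := Cross.snoc h1 (z := (X + m + 1, g (X + m) + h + 1)) (by
        show |X + (m : ℤ) - (X + m + 1)| + |g (X + m) + h + 1 - (g (X + m) + h + 1)| = 1
        have e : X + (m : ℤ) - (X + m + 1) = -1 := by ring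
        rw [e, sub_self, abs_zero, abs_neg, abs_one, add_zero]) (hg _ hmem2)
      have e : c + (m + (((g (X + m) - g X : ℤ)) : ℝ)) * a + a =
          c + (((m + 1 : ℕ) : ℝ) + (((g (X + m) - g X : ℤ)) : ℝ)) * a := by push_cast; ring
      rwa [e] at h2
    · have hc' : g (X + m + 1) = g (X + m) + 1 := by omega
      have h2 := Cross.snoc h1 (z := (X + m, g (X + m) + h + 2)) (by
        show |X + (m : ℤ) - (X + m)| + |g (X + m) + h + 1 - (g (X + m) + h + 2)| = 1
        have e : g (X + (m : ℤ)) + h + 1 - (g (X + m) + h + 2) = -1 := by ring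
        rw [e, sub_self, abs_zero, abs_neg, abs_one, zero_add]) (hg _ hmem1)
      have e1 : ((X + (m : ℤ), g (X + m) + h + 2) : V) = (X + m, g (X + m + 1) + h + 1) := by
        rw [hc']
        exact Prod.ext rfl (by show g (X + (m : ℤ)) + h + 2 = g (X + m) + 1 + h + 1; ring)
      rw [e1] at h2
      have h3 := Cross.snoc h2 (z := (X + m + 1, g (X + m + 1) + h + 1)) (by
        show |X + (m : ℤ) - (X + m + 1)| +
          |g (X + m + 1) + h + 1 - (g (X + m + 1) + h + 1)| = 1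
        have e : X + (m : ℤ) - (X + m + 1) = -1 := by ring
        rw [e, sub_self, abs_zero, abs_neg, abs_one, add_zero]) (hg _ hmem2)
      have e : c + (m + (((g (X + m) - g X : ℤ)) : ℝ)) * a + a + a =
          c + (((m + 1 : ℕ) : ℝ) + (((g (X + m + 1) - g X : ℤ)) : ℝ)) * a := by
        rw [hc']; push_cast; ring
      rwa [e] at h3

theorem mono {g : ℤ → ℤ} (hs : Stair g) (X : ℤ) (L : ℕ) : g X ≤ g (X + L) := by
  induction L with
  | zero => simp
  | succ L ih =>
    have e0 : X + ((L + 1 : ℕ) : ℤ) = X + L + 1 := by push_cast; ring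
    rw [e0]
    exact ih.trans (hs _).1

end Cross2

open Cross Cross2

/-- [CROSS2] Cross2.lean -/
theorem cross2 {g : ℤ → ℤ} (hs : Stair g) {t : Sym2 V → ℝ} (ht : ∀ e, 0 ≤ t e) {a b : ℝ}
    (ha : 0 ≤ a) (hab : a < b) {X : ℤ} {L h : ℕ}
    (hL : a * (L + 4 * h + 2) < b * (L - 2 * h)) (hg : Good2 g t a b X L h) {v : ℕ → V}
    (hv : IsRay t v) {i j : ℕ} (hij : i < j) (hi : (v i).1 = X) (hj : (v j).1 = X + L)
    (hx : ∀ k, i < k → k < j → X < (v k).1 ∧ (v k).1 < X + L)
    (hy : ∀ k, i ≤ k → k ≤ j → ((v k).2 - g (v k).1).natAbs ≤ h) : False := by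
  have hb : 0 < b := ha.trans_lt hab
  have hLh : 0 < b * ((L : ℝ) - 2 * h) := lt_of_le_of_lt (by positivity) hL
  have hLh' : 0 < (L : ℝ) - 2 * h := by
    by_contra hcon
    have := mul_nonpos_of_nonneg_of_nonpos hb.le (not_lt.1 hcon)
    linarith
  have hL0 : 0 < L := by
    have : (0 : ℝ) < L := by
      have h1 : (0 : ℝ) ≤ h := Nat.cast_nonneg h
      linarith
    exact_mod_cast this
  have hxw : ∀ k, i ≤ k → k ≤ j → X ≤ (v k).1 ∧ (v k).1 ≤ X + L := by
    intro k h1 h2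
    rcases eq_or_lt_of_le h1 with h3 | h3
    · subst h3
      omega
    · rcases eq_or_lt_of_le h2 with h4 | h4
      · subst h4
        omega
      · obtain ⟨h5, h6⟩ := hx k h3 h4
        exact ⟨h5.le, h6.le⟩
  -- lower bound
  have hstep : ∀ k ∈ Ico i j, b * ((((v (k + 1)).1 + (v (k + 1)).2 - ((v k).1 + (v k).2) : ℤ)) : ℝ) ≤
      t s(v k, v (k + 1)) := by
    intro k hk'
    obtain ⟨hk1, hk2⟩ := mem_Ico.1 hk'
    have hadj : |(v k).1 - (v (k + 1)).1| + |(v k).2 - (v (k + 1)).2| = 1 := hv.2.1 k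
    obtain ⟨hw1, hw2⟩ := hxw k hk1 hk2.le
    obtain ⟨hw3, hw4⟩ := hxw (k + 1) (by omega) (by omega)
    have hy1 := hy k hk1 hk2.le
    have hy2 := hy (k + 1) (by omega) (by omega)
    by_cases hle : (v (k + 1)).1 + (v (k + 1)).2 - ((v k).1 + (v k).2) ≤ 0
    · have h7 : ((((v (k + 1)).1 + (v (k + 1)).2 - ((v k).1 + (v k).2) : ℤ)) : ℝ) ≤ 0 := by
        exact_mod_cast hle
      exact le_trans (mul_nonpos_of_nonneg_of_nonpos hb.le h7) (ht _)
    · have h8 : ((v (k + 1)).1 = (v k).1 + 1 ∧ (v (k + 1)).2 = (v k).2) ∨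
          ((v (k + 1)).1 = (v k).1 ∧ (v (k + 1)).2 = (v k).2 + 1) := by
        rcases abs_cases ((v k).1 - (v (k + 1)).1) with ⟨e1, _⟩ | ⟨e1, _⟩ <;>
        rcases abs_cases ((v k).2 - (v (k + 1)).2) with ⟨e2, _⟩ | ⟨e2, _⟩ <;> omega
      have h14 : (v (k + 1)).1 + (v (k + 1)).2 - ((v k).1 + (v k).2) = 1 := by omega
      rw [h14, Int.cast_one, mul_one]
      refine hg.1 _ ?_
      rw [High2, mem_union, mem_image, mem_image]
      rcases h8 with ⟨h8, h9⟩ | ⟨h8, h9⟩
      · left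
        refine ⟨((v k).1, (v k).2 - g (v k).1), ?_, ?_⟩
        · rw [mem_product, mem_Ico, mem_Icc]
          show (X ≤ (v k).1 ∧ (v k).1 < X + L) ∧
            (-(h : ℤ) ≤ (v k).2 - g (v k).1 ∧ (v k).2 - g (v k).1 ≤ h)
          omega
        · have e2 : v (k + 1) = ((v k).1 + 1, (v k).2) := Prod.ext h8 h9
          have e3 : g (v k).1 + ((v k).2 - g (v k).1) = (v k).2 := by ring
          show s(((v k).1, g (v k).1 + ((v k).2 - g (v k).1)),
            ((v k).1 + 1, g (v k).1 + ((v k).2 - g (v k).1))) = _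
          rw [e2, e3]
      · right
        have hstrict : X < (v k).1 ∧ (v k).1 < X + L := by
          rcases eq_or_lt_of_le hk1 with h3 | h3
          · exfalso
            subst h3
            rcases eq_or_lt_of_le (show i + 1 ≤ j from hij) with h4 | h4
            · rw [h4, hj, hi] at h8
              omega
            · have := (hx (i + 1) (by omega) h4).1
              omega
          · exact hx k h3 hk2
        refine ⟨((v k).1, (v k).2 - g (v k).1), ?_, ?_⟩
        · rw [mem_product, mem_Ioo, mem_Ico]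
          show (X < (v k).1 ∧ (v k).1 < X + L) ∧
            (-(h : ℤ) ≤ (v k).2 - g (v k).1 ∧ (v k).2 - g (v k).1 < h)
          rw [h8, h9] at hy2
          omega
        · have e2 : v (k + 1) = ((v k).1, (v k).2 + 1) := Prod.ext h8 h9
          have e3 : g (v k).1 + ((v k).2 - g (v k).1) = (v k).2 := by ring
          show s(((v k).1, g (v k).1 + ((v k).2 - g (v k).1)),
            ((v k).1, g (v k).1 + ((v k).2 - g (v k).1) + 1)) = _
          rw [e2, e3]
  have hyi := hy i le_rfl hij.le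
  have hyj := hy j hij.le le_rfl
  rw [hi] at hyi
  rw [hj] at hyj
  have hG := Cross2.mono hs X L
  have hlow : b * ((L : ℝ) - 2 * h + ((g (X + L) - g X : ℤ) : ℝ)) ≤ T t (v i) (v j) := by
    rw [← hv.2.2 i j hij]
    refine le_trans ?_ (sum_le_sum hstep)
    rw [← mul_sum, ← Int.cast_sum, sum_Ico_sub (fun k => (v k).1 + (v k).2) hij.le, hi, hj]
    refine mul_le_mul_of_nonneg_left ?_ hb.le
    have h1 : (L : ℤ) - 2 * h + (g (X + L) - g X) ≤ X + L + (v j).2 - (X + (v i).2) := by omega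
    exact_mod_cast h1
  -- upper bound
  have hLow := hg.2
  have r1 := walk (t := t) (x := v i) (c := 0) (a := a) (fun k => (X, (v i).2 + k))
    (g X + (h : ℤ) + 1 - (v i).2).toNat (by
      intro k hk'
      refine ⟨?_, hLow _ ?_⟩
      · show |X - X| + |(v i).2 + (k : ℤ) - ((v i).2 + ((k + 1 : ℕ) : ℤ))| = 1
        have e : (v i).2 + (k : ℤ) - ((v i).2 + ((k + 1 : ℕ) : ℤ)) = -1 := by push_cast; ring
        rw [e, sub_self, abs_zero, abs_neg, abs_one, zero_add]
      · rw [Low2, mem_union, mem_union, mem_union]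
        left; left; left
        rw [mem_image]
        refine ⟨(v i).2 + k - g X, ?_, ?_⟩
        · rw [mem_Icc]
          omega
        · have e : (v i).2 + ((k + 1 : ℕ) : ℤ) = g X + ((v i).2 + (k : ℤ) - g X) + 1 := by
            push_cast; ring
          have e' : g X + ((v i).2 + (k : ℤ) - g X) = (v i).2 + k := by ring
          rw [e, e'])
    (by
      have e : ((X, (v i).2 + ((0 : ℕ) : ℤ)) : V) = v i := Prod.ext hi.symm (by simp)
      show Reach t (v i) (X, (v i).2 + ((0 : ℕ) : ℤ)) 0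
      rw [e]
      exact refl t _)
  have e1 : ((X, (v i).2 + ((((g X + (h : ℤ) + 1 - (v i).2).toNat : ℕ) : ℤ))) : V) =
      (X, g X + (h : ℤ) + 1) := by
    refine Prod.ext rfl ?_
    show (v i).2 + ((((g X + (h : ℤ) + 1 - (v i).2).toNat : ℕ) : ℤ)) = g X + (h : ℤ) + 1
    omega
  have r1' : Reach t (v i) (X, (v i).2 + ((((g X + (h : ℤ) + 1 - (v i).2).toNat : ℕ) : ℤ)))
    (0 + (((g X + (h : ℤ) + 1 - (v i).2).toNat : ℕ) : ℝ) * a) := r1
  rw [e1] at r1'
  have r2 := stair hs hLow r1' L le_rfl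
  have e2 : ((X + (L : ℤ), g (X + L) + (h : ℤ) + 1) : V) =
      (X + L, g (X + L) + (h : ℤ) + 1 - ((0 : ℕ) : ℤ)) := by
    refine Prod.ext rfl ?_
    simp
  rw [e2] at r2
  have r3 := walk (t := t) (a := a) (fun k => (X + L, g (X + L) + (h : ℤ) + 1 - k))
    (g (X + L) + (h : ℤ) + 1 - (v j).2).toNat (by
      intro k hk'
      refine ⟨?_, hLow _ ?_⟩
      · show |X + (L : ℤ) - (X + L)| +
          |g (X + L) + (h : ℤ) + 1 - (k : ℤ) - (g (X + L) + (h : ℤ) + 1 - ((k + 1 : ℕ) : ℤ))| = 1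
        have e : g (X + L) + (h : ℤ) + 1 - (k : ℤ) -
            (g (X + L) + (h : ℤ) + 1 - ((k + 1 : ℕ) : ℤ)) = 1 := by
          push_cast; ring
        rw [e, sub_self, abs_zero, abs_one, zero_add]
      · rw [Low2, mem_union, mem_union, mem_union]
        left; left; right
        rw [mem_image]
        refine ⟨(h : ℤ) - k, ?_, ?_⟩
        · rw [mem_Icc]
          omega
        · have e : g (X + L) + (h : ℤ) + 1 - ((k + 1 : ℕ) : ℤ) = g (X + L) + ((h : ℤ) - k) := by
            push_cast; ring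
          have e' : g (X + L) + ((h : ℤ) - k) + 1 = g (X + L) + (h : ℤ) + 1 - (k : ℤ) := by ring
          rw [e, e', Sym2.eq_swap]) r2
  have e3 : ((X + (L : ℤ), g (X + L) + (h : ℤ) + 1 -
      ((((g (X + L) + (h : ℤ) + 1 - (v j).2).toNat : ℕ) : ℤ))) : V) = v j := by
    refine Prod.ext hj.symm ?_
    show g (X + L) + (h : ℤ) + 1 - ((((g (X + L) + (h : ℤ) + 1 - (v j).2).toNat : ℕ) : ℤ)) =
      (v j).2
    omega
  have r3' : Reach t (v i)
    (X + (L : ℤ), g (X + L) + (h : ℤ) + 1 -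
      ((((g (X + L) + (h : ℤ) + 1 - (v j).2).toNat : ℕ) : ℤ)))
    (0 + (((g X + (h : ℤ) + 1 - (v i).2).toNat : ℕ) : ℝ) * a +
      ((L : ℝ) + ((g (X + L) - g X : ℤ) : ℝ)) * a +
      (((g (X + L) + (h : ℤ) + 1 - (v j).2).toNat : ℕ) : ℝ) * a) := r3
  rw [e3] at r3'
  have hup := T_le ht r3'
  have hn1 : (((g X + (h : ℤ) + 1 - (v i).2).toNat : ℕ) : ℝ) ≤ 2 * h + 1 := by
    have : (g X + (h : ℤ) + 1 - (v i).2).toNat ≤ 2 * h + 1 := by omega
    exact_mod_cast this
  have hn2 : (((g (X + L) + (h : ℤ) + 1 - (v j).2).toNat : ℕ) : ℝ) ≤ 2 * h + 1 := by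
    have : (g (X + L) + (h : ℤ) + 1 - (v j).2).toNat ≤ 2 * h + 1 := by omega
    exact_mod_cast this
  have hG' : (0 : ℝ) ≤ ((g (X + L) - g X : ℤ) : ℝ) := by
    exact_mod_cast (by omega : (0 : ℤ) ≤ g (X + L) - g X)
  nlinarith [mul_le_mul_of_nonneg_right hn1 ha, mul_le_mul_of_nonneg_right hn2 ha,
    mul_le_mul_of_nonneg_right hab.le hG']

end Vale.Agent.P158
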