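import Mathlib

/-!
# P158: geodesic rays and bigeodesics of planar first-passage percolation
-/

namespace Vale.Agent.P158

open Finset

/-- The vertices of the square lattice. -/
abbrev V := ℤ × ℤ

/-- Nearest neighbours. -/
def Adj (u v : V) : Prop := |u.1 - v.1| + |u.2 - v.2| = 1

/-- The passage time: the infimum over the finite nearest-neighbour paths `p 0, ..., p n` from `x`
to `y` of the sum of the weights of the traversed edges. -/
noncomputable def T (t : Sym2 V → ℝ) (x y : V) : ℝ :=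
  sInf {w | ∃ (n : ℕ) (p : ℕ → V), p 0 = x ∧ p n = y ∧ (∀ i < n, Adj (p i) (p (i + 1))) ∧
    w = ∑ i ∈ range n, t s(p i, p (i + 1))}

/-- Geodesic rays. -/
def IsRay (t : Sym2 V → ℝ) (v : ℕ → V) : Prop :=
  Function.Injective v ∧ (∀ i, Adj (v i) (v (i + 1))) ∧
    ∀ i j, i < j → ∑ k ∈ Ico i j, t s(v k, v (k + 1)) = T t (v i) (v j)

/-- Bigeodesics. -/
def IsBigeodesic (t : Sym2 V → ℝ) (v : ℤ → V) : Prop :=
  Function.Injective v ∧ (∀ i, Adj (v i) (v (i + 1))) ∧
    ∀ i j, i < j → ∑ k ∈ Ico i j, t s(v k, v (k + 1)) = T t (v i) (v j)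

/-- The block with columns `X, ..., X + L` and height `h`: the edges which have to be expensive. -/
noncomputable def High (X : ℤ) (L h : ℕ) : Finset (Sym2 V) :=
  ((Ico X (X + L)) ×ˢ (Icc (-(h : ℤ)) h)).image fun q => s((q.1, q.2), (q.1 + 1, q.2))

/-- The edges which have to be cheap: the two vertical sides and the row `h + 1`. -/
noncomputable def Low (X : ℤ) (L h : ℕ) : Finset (Sym2 V) :=
  ((Ico X (X + L)).image fun x => s((x, (h : ℤ) + 1), (x + 1, (h : ℤ) + 1))) ∪
    ((Icc (-(h : ℤ)) h).image fun y => s((X, y), (X, y + 1))) ∪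
    ((Icc (-(h : ℤ)) h).image fun y => s((X + L, y), (X + L, y + 1)))

/-- The good block. -/
def Good (t : Sym2 V → ℝ) (a b : ℝ) (X : ℤ) (L h : ℕ) : Prop :=
  (∀ e ∈ High X L h, b ≤ t e) ∧ ∀ e ∈ Low X L h, t e ≤ a

end Vale.Agent.P158
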