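import Vale.Agent.P158.Defs

/-!
# P158: blocks along a monotone staircase
-/

namespace Vale.Agent.P158

open Finset

/-- Staircases: nondecreasing with steps at most one. -/
def Stair (g : ℤ → ℤ) : Prop := ∀ x, g x ≤ g (x + 1) ∧ g (x + 1) ≤ g x + 1

/-- The expensive edges: the horizontal edges over `X, ..., X + L` and the vertical edges strictly
between, at distance at most `h` from the staircase. -/
noncomputable def High2 (g : ℤ → ℤ) (X : ℤ) (L h : ℕ) : Finset (Sym2 V) :=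
  ((Ico X (X + L)) ×ˢ (Icc (-(h : ℤ)) h)).image (fun q => s((q.1, g q.1 + q.2), (q.1 + 1, g q.1 + q.2))) ∪
    ((Ioo X (X + L)) ×ˢ (Ico (-(h : ℤ)) h)).image (fun q => s((q.1, g q.1 + q.2), (q.1, g q.1 + q.2 + 1)))

/-- The cheap edges: the vertical edges in the columns `X` and `X + L`, and the staircase at height
`h + 1`. -/
noncomputable def Low2 (g : ℤ → ℤ) (X : ℤ) (L h : ℕ) : Finset (Sym2 V) :=
  ((Icc (-(h : ℤ)) h).image fun y => s((X, g X + y), (X, g X + y + 1))) ∪
    ((Icc (-(h : ℤ)) h).image fun y => s((X + L, g (X + L) + y), (X + L, g (X + L) + y + 1))) ∪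
    ((Ico X (X + L)).image fun x => s((x, g x + h + 1), (x, g x + h + 2))) ∪
    ((Ico X (X + L)).image fun x => s((x, g (x + 1) + h + 1), (x + 1, g (x + 1) + h + 1)))

/-- The good block. -/
def Good2 (g : ℤ → ℤ) (t : Sym2 V → ℝ) (a b : ℝ) (X : ℤ) (L h : ℕ) : Prop :=
  (∀ e ∈ High2 g X L h, b ≤ t e) ∧ ∀ e ∈ Low2 g X L h, t e ≤ a

end Vale.Agent.P158
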