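import Vale.Agent.P158.Defs2

/-!
# P158: the finite families of staircases
-/

namespace Vale.Agent.P158

/-- The staircases of the family with parameter `Q`: slope `p / Q`, offset `q - Q`. -/
noncomputable def fam (Q p q : ℕ) : ℤ → ℤ := fun x => ⌊((p : ℝ) / Q) * x⌋ + ((q : ℤ) - Q)

/-- number of edges of a block (upper bound) -/
def cnt (L h : ℕ) : ℕ := L * (2 * h + 1) + L * (2 * h) + ((2 * h + 1) + (2 * h + 1) + L + L)

end Vale.Agent.P158
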