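import Vale.Agent.P158.Defs

/-! P158, row DISJ: the edges of a block lie over its columns. -/

namespace Vale.Agent.P158

open Finset MeasureTheory ProbabilityTheory Filter

namespace Disj

theorem col_high {X : ℤ} {L h : ℕ} {e : Sym2 V} (he : e ∈ High X L h) {z : V} (hz : z ∈ e) :
    X ≤ z.1 ∧ z.1 ≤ X + L := by
  unfold High at he
  simp only [mem_image, mem_product, mem_Ico, mem_Icc] at he
  obtain ⟨q, ⟨⟨h1, h2⟩, -⟩, rfl⟩ := he
  rw [Sym2.mem_iff] at hz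
  rcases hz with rfl | rfl
  · exact ⟨h1, by simp only; omega⟩
  · exact ⟨by simp only; omega, by simp only; omega⟩

theorem col_low {X : ℤ} {L h : ℕ} {e : Sym2 V} (he : e ∈ Low X L h) {z : V} (hz : z ∈ e) :
    X ≤ z.1 ∧ z.1 ≤ X + L := by
  unfold Low at he
  simp only [mem_union, mem_image, mem_Ico, mem_Icc] at he
  rcases he with (⟨x, ⟨h1, h2⟩, rfl⟩ | ⟨y, -, rfl⟩) | ⟨y, -, rfl⟩
  · rw [Sym2.mem_iff] at hz
    rcases hz with rfl | rfl
    · exact ⟨h1, by simp only; omega⟩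
    · exact ⟨by simp only; omega, by simp only; omega⟩
  · rw [Sym2.mem_iff] at hz
    rcases hz with rfl | rfl
    · exact ⟨le_rfl, by simp only; omega⟩
    · exact ⟨le_rfl, by simp only; omega⟩
  · rw [Sym2.mem_iff] at hz
    rcases hz with rfl | rfl
    · exact ⟨by simp only; omega, le_rfl⟩
    · exact ⟨by simp only; omega, le_rfl⟩

theorem col {X : ℤ} {L h : ℕ} {e : Sym2 V} (he : e ∈ High X L h ∪ Low X L h) {z : V}
    (hz : z ∈ e) : X ≤ z.1 ∧ z.1 ≤ X + L := by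
  rcases mem_union.1 he with h1 | h1
  · exact col_high h1 hz
  · exact col_low h1 hz

end Disj

/-- [DISJ] the edges of a block lie over its columns -/
theorem disj {X Y : ℤ} {L M h g : ℕ} (hXY : X + L < Y) :
    Disjoint (High X L h ∪ Low X L h) (High Y M g ∪ Low Y M g) := by
  rw [Finset.disjoint_left]
  intro e he he'
  obtain ⟨z, hz⟩ : ∃ z, z ∈ e := ⟨_, Sym2.out_fst_mem e⟩
  have h1 := (Disj.col he hz).2
  have h2 := (Disj.col he' hz).1
  omega

theorem high_low (X : ℤ) (L h : ℕ) : Disjoint (High X L h) (Low X L h) := by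
  rw [Finset.disjoint_left]
  intro e he he'
  unfold High at he
  simp only [mem_image, mem_product, mem_Ico, mem_Icc] at he
  obtain ⟨q, ⟨⟨h1, h2⟩, h3, h4⟩, rfl⟩ := he
  unfold Low at he'
  simp only [mem_union, mem_image, mem_Ico, mem_Icc, Sym2.eq_iff, Prod.ext_iff] at he'
  rcases he' with (⟨x, -, h5⟩ | ⟨y, -, h5⟩) | ⟨y, -, h5⟩
  · rcases h5 with ⟨⟨h6, h7⟩, h8, h9⟩ | ⟨⟨h6, h7⟩, h8, h9⟩ <;> omega
  · rcases h5 with ⟨⟨h6, h7⟩, h8, h9⟩ | ⟨⟨h6, h7⟩, h8, h9⟩ <;> omega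
  · rcases h5 with ⟨⟨h6, h7⟩, h8, h9⟩ | ⟨⟨h6, h7⟩, h8, h9⟩ <;> omega

end Vale.Agent.P158
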