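import Vale.Agent.P158.Defs2

/-! P158, row DISJ2: the edges of a block along a staircase lie over its columns. -/

namespace Vale.Agent.P158

open Finset MeasureTheory ProbabilityTheory Filter

namespace Disj2

theorem col_high {g : ℤ → ℤ} {X : ℤ} {L h : ℕ} {e : Sym2 V} (he : e ∈ High2 g X L h) {z : V}
    (hz : z ∈ e) : X ≤ z.1 ∧ z.1 ≤ X + L := by
  unfold High2 at he
  simp only [mem_union, mem_image, mem_product, mem_Ico, mem_Icc, mem_Ioo] at he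
  rcases he with ⟨q, ⟨⟨h1, h2⟩, -⟩, rfl⟩ | ⟨q, ⟨⟨h1, h2⟩, -⟩, rfl⟩
  · rw [Sym2.mem_iff] at hz
    rcases hz with rfl | rfl
    · exact ⟨h1, by simp only; omega⟩
    · exact ⟨by simp only; omega, by simp only; omega⟩
  · rw [Sym2.mem_iff] at hz
    rcases hz with rfl | rfl
    · exact ⟨h1.le, h2.le⟩
    · exact ⟨h1.le, h2.le⟩

theorem col_low {g : ℤ → ℤ} {X : ℤ} {L h : ℕ} {e : Sym2 V} (he : e ∈ Low2 g X L h) {z : V}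
    (hz : z ∈ e) : X ≤ z.1 ∧ z.1 ≤ X + L := by
  unfold Low2 at he
  simp only [mem_union, mem_image, mem_Ico, mem_Icc] at he
  rcases he with ((⟨y, -, rfl⟩ | ⟨y, -, rfl⟩) | ⟨x, ⟨h1, h2⟩, rfl⟩) | ⟨x, ⟨h1, h2⟩, rfl⟩
  · rw [Sym2.mem_iff] at hz
    rcases hz with rfl | rfl
    · exact ⟨le_rfl, by simp only; omega⟩
    · exact ⟨le_rfl, by simp only; omega⟩
  · rw [Sym2.mem_iff] at hz
    rcases hz with rfl | rfl
    · exact ⟨by simp only; omega, le_rfl⟩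
    · exact ⟨by simp only; omega, le_rfl⟩
  · rw [Sym2.mem_iff] at hz
    rcases hz with rfl | rfl
    · exact ⟨h1, h2.le⟩
    · exact ⟨h1, h2.le⟩
  · rw [Sym2.mem_iff] at hz
    rcases hz with rfl | rfl
    · exact ⟨h1, h2.le⟩
    · exact ⟨by simp only; omega, by simp only; omega⟩

theorem col {g : ℤ → ℤ} {X : ℤ} {L h : ℕ} {e : Sym2 V} (he : e ∈ High2 g X L h ∪ Low2 g X L h)
    {z : V} (hz : z ∈ e) : X ≤ z.1 ∧ z.1 ≤ X + L := by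
  rcases mem_union.1 he with h1 | h1
  · exact col_high h1 hz
  · exact col_low h1 hz

end Disj2

/-- [DISJ2] Disj2.lean -/
theorem disj2 (g : ℤ → ℤ) {X Y : ℤ} {L M h l : ℕ} (hXY : X + L < Y) :
    Disjoint (High2 g X L h ∪ Low2 g X L h) (High2 g Y M l ∪ Low2 g Y M l) := by
  rw [Finset.disjoint_left]
  intro e he he'
  obtain ⟨z, hz⟩ : ∃ z, z ∈ e := ⟨_, Sym2.out_fst_mem e⟩
  have h1 := (Disj2.col he hz).2
  have h2 := (Disj2.col he' hz).1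
  omega

theorem high_low2 {g : ℤ → ℤ} (hs : Stair g) (X : ℤ) (L h : ℕ) (hL : 1 ≤ L) :
    Disjoint (High2 g X L h) (Low2 g X L h) := by
  rw [Finset.disjoint_left]
  intro e he he'
  unfold High2 at he
  simp only [mem_union, mem_image, mem_product, mem_Ico, mem_Icc, mem_Ioo] at he
  unfold Low2 at he'
  rcases he with ⟨⟨x, q⟩, ⟨⟨h1, h2⟩, h3, h4⟩, rfl⟩ | ⟨⟨x, q⟩, ⟨⟨h1, h2⟩, h3, h4⟩, rfl⟩
  · simp only [mem_union, mem_image, mem_Ico, mem_Icc, Sym2.eq_iff, Prod.ext_iff] at he' h1 h2 h3 h4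
    rcases he' with ((⟨y, -, h5⟩ | ⟨y, -, h5⟩) | ⟨x', -, h5⟩) | ⟨x', -, h5⟩
    · rcases h5 with ⟨⟨h6, h7⟩, h8, h9⟩ | ⟨⟨h6, h7⟩, h8, h9⟩ <;> omega
    · rcases h5 with ⟨⟨h6, h7⟩, h8, h9⟩ | ⟨⟨h6, h7⟩, h8, h9⟩ <;> omega
    · rcases h5 with ⟨⟨h6, h7⟩, h8, h9⟩ | ⟨⟨h6, h7⟩, h8, h9⟩ <;> omega
    · rcases h5 with ⟨⟨h6, h7⟩, h8, h9⟩ | ⟨⟨h6, h7⟩, h8, h9⟩
      · subst h6
        have := (hs x').1
        omega
      · omega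
  · simp only [mem_union, mem_image, mem_Ico, mem_Icc, Sym2.eq_iff, Prod.ext_iff] at he' h1 h2 h3 h4
    rcases he' with ((⟨y, -, h5⟩ | ⟨y, -, h5⟩) | ⟨x', -, h5⟩) | ⟨x', -, h5⟩
    · rcases h5 with ⟨⟨h6, h7⟩, h8, h9⟩ | ⟨⟨h6, h7⟩, h8, h9⟩ <;> omega
    · rcases h5 with ⟨⟨h6, h7⟩, h8, h9⟩ | ⟨⟨h6, h7⟩, h8, h9⟩ <;> omega
    · rcases h5 with ⟨⟨h6, h7⟩, h8, h9⟩ | ⟨⟨h6, h7⟩, h8, h9⟩ <;> (subst h6; omega)
    · rcases h5 with ⟨⟨h6, h7⟩, h8, h9⟩ | ⟨⟨h6, h7⟩, h8, h9⟩ <;> omega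

end Vale.Agent.P158
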