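import Vale.Agent.P158.Defs

/-! P158: a self-avoiding ray in a region with finite columns goes to the right or to the left. -/

namespace Vale.Agent.P158

open Finset Filter

namespace Exit

theorem far (f : ℕ → ℕ) {v : ℕ → V} (hinj : Function.Injective v) (i0 : ℕ)
    (h : ∀ i ≥ i0, (v i).2.natAbs ≤ f (v i).1.natAbs) (M : ℕ) :
    ∃ N, ∀ i ≥ N, M < (v i).1.natAbs := by
  let B : ℕ := (range (M + 1)).sup f
  have hS : ({p : V | p.1.natAbs ≤ M ∧ p.2.natAbs ≤ f p.1.natAbs}).Finite := by
    refine (Set.finite_Icc ((-(M : ℤ), -(B : ℤ)) : V) ((M : ℤ), (B : ℤ))).subset ?_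
    rintro ⟨a, b⟩ ⟨h1, h2⟩
    simp only at h1 h2
    have h3 : f a.natAbs ≤ B := le_sup (f := f) (mem_range.2 (by omega))
    exact ⟨⟨by simp only; omega, by simp only; omega⟩, ⟨by simp only; omega, by simp only; omega⟩⟩
  have hF : (v ⁻¹' {p : V | p.1.natAbs ≤ M ∧ p.2.natAbs ≤ f p.1.natAbs}).Finite :=
    hS.preimage hinj.injOn
  obtain ⟨N, hN⟩ := hF.bddAbove
  refine ⟨max i0 (N + 1), fun i hi => ?_⟩
  by_contra hc
  have h1 : i0 ≤ i := le_trans (le_max_left _ _) hi
  have h2 : N + 1 ≤ i := le_trans (le_max_right _ _) hi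
  have h3 : i ≤ N := hN ⟨not_lt.mp hc, h i h1⟩
  omega

end Exit

/-- [EXIT] Exit.lean: a self-avoiding ray which stays in a region with finite columns goes to the
right or to the left. -/
theorem exit (f : ℕ → ℕ) {v : ℕ → V} (hinj : Function.Injective v)
    (hadj : ∀ i, Adj (v i) (v (i + 1))) (i0 : ℕ)
    (h : ∀ i ≥ i0, (v i).2.natAbs ≤ f (v i).1.natAbs) :
    Tendsto (fun i => (v i).1) atTop atTop ∨ Tendsto (fun i => (v i).1) atTop atBot := by
  have hfar := Exit.far f hinj i0 h
  have hstep : ∀ i, (v i).1 - 1 ≤ (v (i + 1)).1 ∧ (v (i + 1)).1 ≤ (v i).1 + 1 := fun i => by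
    have h1 : |(v i).1 - (v (i + 1)).1| + |(v i).2 - (v (i + 1)).2| = 1 := hadj i
    have h2 := abs_nonneg ((v i).2 - (v (i + 1)).2)
    have h3 := abs_le.1 (show |(v i).1 - (v (i + 1)).1| ≤ 1 by omega)
    omega
  obtain ⟨N, hN⟩ := hfar 0
  by_cases hp : 0 < (v N).1
  · left
    have hpos : ∀ i ≥ N, 0 < (v i).1 := by
      intro i hi
      induction i, hi using Nat.le_induction with
      | base => exact hp
      | succ i hi ih =>
        have h1 := hN (i + 1) (by omega)
        have h2 := hstep i
        omega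
    rw [tendsto_atTop]
    intro b
    obtain ⟨N', hN'⟩ := hfar b.natAbs
    filter_upwards [eventually_ge_atTop N, eventually_ge_atTop N'] with i h1 h2
    have h3 := hpos i h1
    have h4 := hN' i h2
    omega
  · right
    have hneg : ∀ i ≥ N, (v i).1 < 0 := by
      intro i hi
      induction i, hi using Nat.le_induction with
      | base =>
        have h1 := hN N le_rfl
        omega
      | succ i hi ih =>
        have h1 := hN (i + 1) (by omega)
        have h2 := hstep i
        omega
    rw [tendsto_atBot]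
    intro b
    obtain ⟨N', hN'⟩ := hfar b.natAbs
    filter_upwards [eventually_ge_atTop N, eventually_ge_atTop N'] with i h1 h2
    have h3 := hneg i h1
    have h4 := hN' i h2
    omega

end Vale.Agent.P158
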