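import Vale.Agent.P158.Defs2
import Vale.Agent.P158.Exit

/-! P158: a self-avoiding ray near a staircase goes to the right or to the left. -/

namespace Vale.Agent.P158

open Finset Filter

/-- [EXIT2] Exit2.lean (from exit) -/
theorem exit2 (g : ℤ → ℤ) (f : ℕ → ℕ) {v : ℕ → V} (hinj : Function.Injective v)
    (hadj : ∀ i, Adj (v i) (v (i + 1))) (i0 : ℕ)
    (h : ∀ i ≥ i0, ((v i).2 - g (v i).1).natAbs ≤ f (v i).1.natAbs) :
    Tendsto (fun i => (v i).1) atTop atTop ∨ Tendsto (fun i => (v i).1) atTop atBot := by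
  refine exit (fun n => f n + (g (n : ℤ)).natAbs + (g (-(n : ℤ))).natAbs) hinj hadj i0
    fun i hi => ?_
  have h1 := h i hi
  change ((v i).2).natAbs ≤ f (v i).1.natAbs + (g ((v i).1.natAbs : ℤ)).natAbs + (g (-((v i).1.natAbs : ℤ))).natAbs
  have h2 : g (v i).1 = g ((v i).1.natAbs : ℤ) ∨ g (v i).1 = g (-((v i).1.natAbs : ℤ)) := by
    rcases Int.natAbs_eq (v i).1 with e | e
    · exact Or.inl (congrArg g e)
    · exact Or.inr (congrArg g e)
  omega

end Vale.Agent.P158
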