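import Vale.Agent.P158.Defs2

/-! P158, row FLOOR. -/

namespace Vale.Agent.P158

open Finset

theorem stair_floor {α : ℝ} (h0 : 0 ≤ α) (h1 : α ≤ 1) : Stair (fun x : ℤ => ⌊α * x⌋) := by
  intro x
  have e : α * ((x + 1 : ℤ) : ℝ) = α * x + α := by
    push_cast
    ring
  constructor
  · show ⌊α * (x : ℝ)⌋ ≤ ⌊α * ((x + 1 : ℤ) : ℝ)⌋
    rw [e]
    exact Int.floor_le_floor (by linarith)
  · show ⌊α * ((x + 1 : ℤ) : ℝ)⌋ ≤ ⌊α * (x : ℝ)⌋ + 1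
    rw [e, ← Int.floor_add_one]
    exact Int.floor_le_floor (by linarith)

end Vale.Agent.P158
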