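import Mathlib

/-! P158, row GROW: the explicit growth of the scales -/

namespace Vale.Agent.P158

open Finset Filter

namespace Grow

variable {L H : ℕ → ℕ}

/-- the positions -/
def pos (L H : ℕ → ℕ) : ℕ → ℕ
  | 0 => 0
  | k + 1 => pos L H k + L (H k) + 1

theorem pos_succ (k : ℕ) : pos L H (k + 1) = pos L H k + L (H k) + 1 := rfl

theorem pos_lt (k : ℕ) : pos L H k < pos L H (k + 1) := by
  rw [pos_succ]
  omega

theorem pos_mono : StrictMono (pos L H) := strictMono_nat_of_lt_succ pos_lt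

theorem le_pos (k : ℕ) : k ≤ pos L H k := (pos_mono (L := L) (H := H)).le_apply

/-- the index of the block of `x` -/
noncomputable def idx (L H : ℕ → ℕ) (x : ℕ) : ℕ :=
  Nat.findGreatest (fun k => pos L H k ≤ x) x

theorem pos_idx (x : ℕ) : pos L H (idx L H x) ≤ x := by
  have h := Nat.findGreatest_spec (P := fun k => pos L H k ≤ x) (m := 0) (n := x) (Nat.zero_le _)
    (by show pos L H 0 ≤ x; exact Nat.zero_le _)
  exact h

theorem le_idx {k x : ℕ} (h : pos L H k ≤ x) : k ≤ idx L H x :=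
  Nat.le_findGreatest ((le_pos k).trans h) h

theorem lt_succ (x : ℕ) : x < pos L H (idx L H x + 1) := by
  by_contra hc
  have := le_idx (L := L) (H := H) (not_lt.1 hc)
  omega

theorem idx_eq {k x : ℕ} (h : pos L H k ≤ x) (h' : x ≤ pos L H k + L (H k)) :
    idx L H x = k := by
  refine le_antisymm ?_ (le_idx h)
  by_contra hc
  have h1 : pos L H (k + 1) ≤ pos L H (idx L H x) :=
    (pos_mono (L := L) (H := H)).monotone (by omega)
  have h2 := pos_idx (L := L) (H := H) x
  rw [pos_succ] at h1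
  omega

end Grow

open Grow

/-- [GROW] Grow.lean -/
theorem grow (K M : ℕ) (hM : 1 ≤ M) (L H : ℕ → ℕ) (hL : ∀ h, L h ≤ K * (h + 1))
    (hH : ∀ k, H k = Nat.sqrt (Nat.log 2 (k + 2) / M)) :
    ∃ X F : ℕ → ℕ, (∀ k, k ≤ X k) ∧ (∀ k, X k + L (H k) < X (k + 1)) ∧
      (∀ k x, X k ≤ x → x ≤ X k + L (H k) → F x = H k) ∧ Tendsto F atTop atTop ∧
      ∃ κ : ℝ, 0 < κ ∧ ∃ C0 : ℕ, ∀ n : ℕ,
        κ * √(Real.log (n + 2)) ≤ ((F n / 2 : ℕ) : ℝ) + C0 := by
  have hmono : Monotone H := by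
    intro a b hab
    rw [hH, hH]
    exact Nat.sqrt_le_sqrt (Nat.div_le_div_right (Nat.log_mono_right (by omega)))
  have hle : ∀ k, H k ≤ k + 1 := by
    intro k
    rw [hH]
    refine (Nat.sqrt_le_self _).trans ((Nat.div_le_self _ _).trans ?_)
    have : Nat.log 2 (k + 2) < k + 2 := Nat.log_lt_self 2 (by omega)
    omega
  have hinf : ∀ m, m ≤ H (2 ^ (M * m ^ 2)) := by
    intro m
    rw [hH, Nat.le_sqrt']
    rw [Nat.le_div_iff_mul_le (by omega)]
    have h0 : m ^ 2 * M = M * m ^ 2 := Nat.mul_comm _ _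
    rw [h0]
    exact (Nat.le_log_iff_pow_le (by norm_num) (Nat.succ_ne_zero _)).2 (Nat.le_add_right _ 2)
  have hpos : ∀ k, pos L H k ≤ k * (K * (H k + 1) + 1) := by
    intro k
    induction k with
    | zero => simp [pos]
    | succ k ih =>
      have h1 := hL (H k)
      have h2 : H k ≤ H (k + 1) := hmono (by omega)
      have h3 : K * (H k + 1) ≤ K * (H (k + 1) + 1) := Nat.mul_le_mul_left _ (by omega)
      have h4 : k * (K * (H k + 1) + 1) ≤ k * (K * (H (k + 1) + 1) + 1) :=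
        Nat.mul_le_mul_left _ (by omega)
      rw [pos_succ, Nat.succ_mul]
      omega
  refine ⟨pos L H, fun x => H (idx L H x), le_pos, fun k => ?_, fun k x h h' => ?_, ?_, ?_⟩
  · rw [pos_succ]
    omega
  · show H (idx L H x) = H k
    rw [idx_eq h h']
  · rw [tendsto_atTop]
    intro m
    filter_upwards [eventually_ge_atTop (pos L H (2 ^ (M * m ^ 2)))] with x hx
    exact (hinf m).trans (hmono (le_idx hx))
  · have hA : (0 : ℝ) < (K : ℝ) + 2 + 2 * M := by positivity
    refine ⟨1 / (2 * √((K : ℝ) + 2 + 2 * M)), by positivity, 1, fun n => ?_⟩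
    set k := idx L H n with hk
    have h1 : n < pos L H (k + 1) := lt_succ n
    have h2 : n < (k + 1) * (K * (H (k + 1) + 1) + 1) := lt_of_lt_of_le h1 (hpos _)
    have h3 : pos L H (k + 1) ≤ k * (K * (H k + 1) + 1) + K * (H k + 1) + 1 := by
      rw [pos_succ]
      have := hpos k
      have := hL (H k)
      omega
    have h4 : n + 2 ≤ (K + 2) * (k + 2) ^ 2 := by
      have h5 : k * (K * (H k + 1) + 1) + K * (H k + 1) + 1 =
        (k + 1) * (K * (H k + 1) + 1) := by ring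
      have h6 : (k + 1) * (K * (H k + 1) + 1) ≤ (k + 1) * (K * (k + 2) + 1) := by
        refine Nat.mul_le_mul_left _ ?_
        have := Nat.mul_le_mul_left K (show H k + 1 ≤ k + 2 by have := hle k; omega)
        omega
      have h7 : (k + 1) * (K * (k + 2) + 1) + 1 ≤ (K + 2) * (k + 2) ^ 2 := by
        have : (K + 2) * (k + 2) ^ 2 = (k + 1) * (K * (k + 2) + 1) + 1 +
          (K * (k + 2) + 2 * (k + 2) ^ 2 - (k + 2)) := by
          have e : K * (k + 2) + 2 * (k + 2) ^ 2 - (k + 2) =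
            K * (k + 2) + 2 * (k + 2) * (k + 1) + (k + 2) := by
            have : K * (k + 2) + 2 * (k + 2) ^ 2 =
              (K * (k + 2) + 2 * (k + 2) * (k + 1) + (k + 2)) + (k + 2) := by ring
            omega
          rw [e]
          ring
        omega
      omega
    have h8 : Real.log (n + 2) ≤ Real.log (K + 2) + 2 * Real.log (k + 2) := by
      have h9 : ((n : ℝ) + 2) ≤ ((K : ℝ) + 2) * ((k : ℝ) + 2) ^ 2 := by exact_mod_cast h4
      have h10 := Real.log_le_log (by positivity) h9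
      rw [Real.log_mul (by positivity) (by positivity), Real.log_pow] at h10
      push_cast at h10
      exact h10
    have h11 : Nat.log 2 (k + 2) + 1 ≤ M * (H k + 1) ^ 2 := by
      have h12 : Nat.log 2 (k + 2) / M < (H k + 1) ^ 2 := by
        have := Nat.lt_succ_sqrt' (Nat.log 2 (k + 2) / M)
        rw [← hH] at this
        exact this
      have h13 := (Nat.div_lt_iff_lt_mul (by omega : 0 < M)).1 h12
      rw [Nat.mul_comm] at h13
      omega
    have h14 : Real.log (k + 2) ≤ M * ((H k : ℝ) + 1) ^ 2 := by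
      have h15 : k + 2 < 2 ^ (Nat.log 2 (k + 2) + 1) := Nat.lt_pow_succ_log_self (by norm_num) _
      have h16 : ((k : ℝ) + 2) ≤ (2 : ℝ) ^ (Nat.log 2 (k + 2) + 1) := by exact_mod_cast h15.le
      have h17 := Real.log_le_log (by positivity) h16
      rw [Real.log_pow] at h17
      have h18 : ((Nat.log 2 (k + 2) + 1 : ℕ) : ℝ) ≤ M * ((H k : ℝ) + 1) ^ 2 := by
        exact_mod_cast h11
      have h19 : Real.log 2 ≤ 1 := by
        have := Real.log_two_lt_d9
        linarith
      calc Real.log (k + 2) ≤ ((Nat.log 2 (k + 2) + 1 : ℕ) : ℝ) * Real.log 2 := h17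
        _ ≤ ((Nat.log 2 (k + 2) + 1 : ℕ) : ℝ) * 1 :=
          mul_le_mul_of_nonneg_left h19 (Nat.cast_nonneg _)
        _ ≤ _ := by rw [mul_one]; exact h18
    have h20 : Real.log (K + 2) ≤ (K : ℝ) + 2 := (Real.log_le_self (by positivity))
    have h21 : (1 : ℝ) ≤ ((H k : ℝ) + 1) ^ 2 := by
      have : (0 : ℝ) ≤ H k := Nat.cast_nonneg _
      nlinarith
    have h22 : Real.log (n + 2) ≤ ((K : ℝ) + 2 + 2 * M) * ((H k : ℝ) + 1) ^ 2 := by
      have : (K : ℝ) + 2 ≤ ((K : ℝ) + 2) * ((H k : ℝ) + 1) ^ 2 :=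
        le_mul_of_one_le_right (by positivity) h21
      nlinarith
    have h23 : √(Real.log (n + 2)) ≤ √((K : ℝ) + 2 + 2 * M) * ((H k : ℝ) + 1) := by
      refine (Real.sqrt_le_sqrt h22).trans ?_
      rw [Real.sqrt_mul hA.le, Real.sqrt_sq (by positivity)]
    have h24 : (H k : ℝ) + 1 ≤ 2 * (((H k / 2 : ℕ) : ℝ) + 1) := by
      have : H k + 1 ≤ 2 * (H k / 2 + 1) := by omega
      exact_mod_cast this
    have hs : 0 < √((K : ℝ) + 2 + 2 * M) := Real.sqrt_pos.2 hA
    show 1 / (2 * √((K : ℝ) + 2 + 2 * M)) * √(Real.log (n + 2)) ≤ ((H k / 2 : ℕ) : ℝ) + (1 : ℕ)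
    rw [div_mul_eq_mul_div, one_mul, div_le_iff₀ (by positivity)]
    push_cast
    calc √(Real.log (n + 2)) ≤ √((K : ℝ) + 2 + 2 * M) * ((H k : ℝ) + 1) := h23
      _ ≤ √((K : ℝ) + 2 + 2 * M) * (2 * (((H k / 2 : ℕ) : ℝ) + 1)) :=
        mul_le_mul_of_nonneg_left h24 hs.le
      _ = _ := by ring

end Vale.Agent.P158
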