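import Vale.Agent.P158.Defs

/-! P158: discrete crossing. -/

namespace Vale.Agent.P158

open Finset Filter

/-- [IVT] Ivt.lean: discrete crossing. -/
theorem ivt {x : ℕ → ℤ} (hx : ∀ i, |x (i + 1) - x i| ≤ 1) (hlim : Tendsto x atTop atTop) {i0 : ℕ}
    {X : ℤ} (hX : x i0 ≤ X) (L : ℕ) :
    ∃ i j, i0 ≤ i ∧ i ≤ j ∧ x i = X ∧ x j = X + L ∧
      ∀ k, i ≤ k → k ≤ j → X ≤ x k ∧ x k ≤ X + L := by
  classical
  have hstep : ∀ i, x (i + 1) ≤ x i + 1 := fun i => by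
    have := (abs_le.1 (hx i)).2
    omega
  have hex : ∃ j, i0 ≤ j ∧ X + (L : ℤ) ≤ x j := by
    obtain ⟨N, hN⟩ := (hlim.eventually_ge_atTop (X + (L : ℤ))).exists_forall_of_atTop
    exact ⟨max i0 N, le_max_left _ _, hN _ (le_max_right _ _)⟩
  obtain ⟨j, ⟨hj0, hj⟩, hmin⟩ : ∃ j, (i0 ≤ j ∧ X + (L : ℤ) ≤ x j) ∧
      ∀ k, i0 ≤ k → k < j → x k < X + L :=
    ⟨Nat.find hex, Nat.find_spec hex, fun k h0 hk => by
      by_contra h
      exact Nat.find_min hex hk ⟨h0, not_lt.mp h⟩⟩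
  have hjeq : x j = X + L := by
    rcases hj0.eq_or_lt with h | h
    · subst h
      omega
    · obtain ⟨m, rfl⟩ : ∃ m, j = m + 1 := ⟨j - 1, by omega⟩
      have h1 := hmin m (by omega) (by omega)
      have h2 := hstep m
      omega
  let Q : ℕ → Prop := fun i => i0 ≤ i ∧ x i ≤ X
  have hQ : Q i0 := ⟨le_rfl, hX⟩
  obtain ⟨i, hij, ⟨hi0, hiX⟩, hgr⟩ : ∃ i, i ≤ j ∧ Q i ∧ ∀ k, i < k → k ≤ j → ¬ Q k :=
    ⟨Nat.findGreatest Q j, Nat.findGreatest_le j, Nat.findGreatest_spec hj0 hQ,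
      fun k h1 h2 => Nat.findGreatest_is_greatest h1 h2⟩
  have hgt : ∀ k, i < k → k ≤ j → X < x k := fun k h1 h2 => by
    by_contra h
    exact hgr k h1 h2 ⟨by omega, not_lt.mp h⟩
  have hieq : x i = X := by
    rcases hij.eq_or_lt with h | h
    · subst h
      omega
    · have h1 := hgt (i + 1) (by omega) (by omega)
      have h2 := hstep i
      omega
  refine ⟨i, j, hi0, hij, hieq, hjeq, fun k h1 h2 => ⟨?_, ?_⟩⟩
  · rcases h1.eq_or_lt with h | h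
    · subst h
      omega
    · exact (hgt k h h2).le
  · rcases h2.eq_or_lt with h | h
    · subst h
      omega
    · exact (hmin k (by omega) h).le

end Vale.Agent.P158
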