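import Vale.Agent.P158.Defs2

/-! P158: discrete crossing, strict between. -/

namespace Vale.Agent.P158

open Finset Filter

/-- [IVT2] Ivt2.lean: discrete crossing, strict between. -/
theorem ivt2 {x : ℕ → ℤ} (hx : ∀ i, |x (i + 1) - x i| ≤ 1) (hlim : Tendsto x atTop atTop) {i0 : ℕ}
    {X : ℤ} (hX : x i0 ≤ X) {L : ℕ} (hL : 1 ≤ L) :
    ∃ i j, i0 ≤ i ∧ i < j ∧ x i = X ∧ x j = X + L ∧
      ∀ k, i < k → k < j → X < x k ∧ x k < X + L := by
  classical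
  have hstep : ∀ i, x (i + 1) ≤ x i + 1 := fun i => by
    have := (abs_le.1 (hx i)).2
    omega
  have hex : ∃ j, i0 ≤ j ∧ X + (L : ℤ) ≤ x j := by
    obtain ⟨N, hN⟩ := (hlim.eventually_ge_atTop (X + (L : ℤ))).exists_forall_of_atTop
    exact ⟨max i0 N, le_max_left _ _, hN _ (le_max_right _ _)⟩
  obtain ⟨j, ⟨hj0, hj⟩, hmin⟩ : ∃ j, (i0 ≤ j ∧ X + (L : ℤ) ≤ x j) ∧
      ∀ k, i0 ≤ k → k < j → x k < X + L :=
    ⟨Nat.find hex, Nat.find_spec hex, fun k h0 hk => by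
      by_contra h
      exact Nat.find_min hex hk ⟨h0, not_lt.mp h⟩⟩
  have hj1 : i0 < j := by
    rcases hj0.eq_or_lt with h | h
    · subst h
      omega
    · exact h
  have hjeq : x j = X + L := by
    obtain ⟨m, rfl⟩ : ∃ m, j = m + 1 := ⟨j - 1, by omega⟩
    have h1 := hmin m (by omega) (by omega)
    have h2 := hstep m
    omega
  let Q : ℕ → Prop := fun i => i0 ≤ i ∧ x i ≤ X
  have hQ : Q i0 := ⟨le_rfl, hX⟩
  obtain ⟨i, hij, ⟨hi0, hiX⟩, hgr⟩ : ∃ i, i ≤ j ∧ Q i ∧ ∀ k, i < k → k ≤ j → ¬ Q k :=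
    ⟨Nat.findGreatest Q j, Nat.findGreatest_le j, Nat.findGreatest_spec hj0 hQ,
      fun k h1 h2 => Nat.findGreatest_is_greatest h1 h2⟩
  have hgt : ∀ k, i < k → k ≤ j → X < x k := fun k h1 h2 => by
    by_contra h
    exact hgr k h1 h2 ⟨by omega, not_lt.mp h⟩
  have hlt : i < j := by
    rcases hij.eq_or_lt with h | h
    · subst h
      omega
    · exact h
  have hieq : x i = X := by
    have h1 := hgt (i + 1) (by omega) (by omega)
    have h2 := hstep i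
    omega
  exact ⟨i, j, hi0, hlt, hieq, hjeq, fun k h1 h2 => ⟨hgt k h1 h2.le, hmin k (by omega) h2⟩⟩

end Vale.Agent.P158
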