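import Vale.Agent.P158.Defs

/-!
# P158, row PROB: the second Borel-Cantelli lemma for events on disjoint finite sets of coordinates
-/

namespace Vale.Agent.P158

open Finset MeasureTheory ProbabilityTheory Filter

namespace Prob

/-- The event that all the coordinates in `B` lie in their sets. -/
def E {Ω ι : Type*} (t : ι → Ω → ℝ) (A : ι → Set ℝ) (B : Finset ι) : Set Ω :=
  ⋂ e ∈ B, t e ⁻¹' A e

theorem measurableSet_E {Ω ι : Type*} [MeasurableSpace Ω] {t : ι → Ω → ℝ}
    (hmeas : ∀ e, Measurable (t e)) {A : ι → Set ℝ} (hA : ∀ e, MeasurableSet (A e))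
    (B : Finset ι) : MeasurableSet (E t A B) :=
  Finset.measurableSet_biInter B fun e _ => hmeas e (hA e)

theorem measure_E {Ω ι : Type*} [MeasurableSpace Ω] {P : Measure Ω}
    {t : ι → Ω → ℝ} (hind : iIndepFun t P) {A : ι → Set ℝ} (hA : ∀ e, MeasurableSet (A e))
    (B : Finset ι) : P (E t A B) = ∏ e ∈ B, P (t e ⁻¹' A e) :=
  hind.measure_inter_preimage_eq_mul B fun e _ => hA e

theorem indep_E {Ω ι : Type*} [MeasurableSpace Ω] {P : Measure Ω}
    {t : ι → Ω → ℝ} (hmeas : ∀ e, Measurable (t e)) (hind : iIndepFun t P) {A : ι → Set ℝ}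
    (hA : ∀ e, MeasurableSet (A e)) {B : ℕ → Finset ι}
    (hB : Pairwise (Function.onFun Disjoint B)) : iIndepSet (fun k => E t A (B k)) P := by
  classical
  rw [iIndepSet_iff_meas_biInter fun k => measurableSet_E hmeas hA (B k)]
  intro s
  have h1 : (⋂ k ∈ s, E t A (B k)) = E t A (s.biUnion B) := by
    ext ω
    simp only [E, Set.mem_iInter, Finset.mem_biUnion]
    constructor
    · rintro h e ⟨k, hk, he⟩
      exact h k hk e he
    · intro h k hk e he
      exact h e ⟨k, hk, he⟩
  rw [h1, measure_E hind hA, Finset.prod_biUnion fun i _ j _ hij => hB hij]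
  exact Finset.prod_congr rfl fun k _ => (measure_E hind hA (B k)).symm

end Prob

/-- [PROB] Prob.lean: second Borel-Cantelli lemma for events on disjoint finite sets of
coordinates. -/
theorem bc {Ω ι : Type*} [MeasurableSpace Ω] {P : Measure Ω} [IsProbabilityMeasure P]
    {t : ι → Ω → ℝ} (hmeas : ∀ e, Measurable (t e)) (hind : iIndepFun t P) (A : ι → Set ℝ)
    (hA : ∀ e, MeasurableSet (A e)) (B : ℕ → Finset ι) (hB : Pairwise (Function.onFun Disjoint B))
    (hsum : ∑' k, ∏ e ∈ B k, P (t e ⁻¹' A e) = ⊤) :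
    ∀ᵐ ω ∂P, ∃ᶠ k in atTop, ∀ e ∈ B k, t e ω ∈ A e := by
  have h1 : P (limsup (fun k => Prob.E t A (B k)) atTop) = 1 := by
    refine measure_limsup_eq_one (fun k => Prob.measurableSet_E hmeas hA (B k))
      (Prob.indep_E hmeas hind hA hB) ?_
    rw [← hsum]
    exact tsum_congr fun k => Prob.measure_E hind hA (B k)
  have h2 : MeasurableSet (limsup (fun k => Prob.E t A (B k)) atTop) :=
    MeasurableSet.measurableSet_limsup fun k => Prob.measurableSet_E hmeas hA (B k)
  have h3 : ∀ᵐ ω ∂P, ω ∈ limsup (fun k => Prob.E t A (B k)) atTop :=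
    (prob_compl_eq_zero_iff h2).2 h1
  filter_upwards [h3] with ω hω
  rw [mem_limsup_iff_frequently_mem] at hω
  refine hω.mono fun k hk e he => ?_
  simp only [Prob.E, Set.mem_iInter] at hk
  exact hk e he

end Vale.Agent.P158
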