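import Vale.Agent.P158.Defs

/-! P158, row REFL: automorphisms of the lattice map rays to rays. -/

namespace Vale.Agent.P158

open Finset MeasureTheory ProbabilityTheory Filter

namespace Refl

theorem map_symm_mk (ρ : V ≃ V) (u v : V) : Sym2.map ρ.symm s(ρ u, ρ v) = s(u, v) := by
  simp

theorem T_map (ρ : V ≃ V) (hρ : ∀ u v, Adj (ρ u) (ρ v) ↔ Adj u v) (t : Sym2 V → ℝ) (x y : V) :
    T (fun e => t (Sym2.map ρ.symm e)) (ρ x) (ρ y) = T t x y := by
  unfold T
  congr 1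
  ext w
  constructor
  · rintro ⟨n, p, h0, hn, hadj, hw⟩
    refine ⟨n, fun i => ρ.symm (p i), ?_, ?_, fun i hi => ?_, ?_⟩
    · simp only [h0, Equiv.symm_apply_apply]
    · simp only [hn, Equiv.symm_apply_apply]
    · rw [← hρ, Equiv.apply_symm_apply, Equiv.apply_symm_apply]
      exact hadj i hi
    · rw [hw]
      exact sum_congr rfl fun i _ => by simp
  · rintro ⟨n, p, h0, hn, hadj, hw⟩
    refine ⟨n, fun i => ρ (p i), ?_, ?_, fun i hi => ?_, ?_⟩
    · simp only [h0]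
    · simp only [hn]
    · exact (hρ _ _).2 (hadj i hi)
    · rw [hw]
      exact sum_congr rfl fun i _ => by simp

end Refl

/-- [REFL] automorphisms -/
theorem ray_map (ρ : V ≃ V) (hρ : ∀ u v, Adj (ρ u) (ρ v) ↔ Adj u v) {t : Sym2 V → ℝ} {v : ℕ → V}
    (hv : IsRay t v) : IsRay (fun e => t (Sym2.map ρ.symm e)) (fun i => ρ (v i)) := by
  refine ⟨ρ.injective.comp hv.1, fun i => (hρ _ _).2 (hv.2.1 i), fun i j hij => ?_⟩
  rw [Refl.T_map ρ hρ, ← hv.2.2 i j hij]
  exact sum_congr rfl fun k _ => by simp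

end Vale.Agent.P158
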