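import Vale.Agent.P158.Defs

/-! P158, row SCALE: disjoint blocks and the function `f`. -/

namespace Vale.Agent.P158

open Filter

/-- [SCALE] Scale.lean: disjoint blocks `[X k, X k + L (H k)]` and the function `f`. -/
theorem scale (H L : ℕ → ℕ) (hH : Tendsto H atTop atTop) :
    ∃ (X : ℕ → ℕ) (f : ℕ → ℕ), Tendsto f atTop atTop ∧ (∀ k, k ≤ X k) ∧
      (∀ k, X k + L (H k) < X (k + 1)) ∧
      ∀ k x, X k ≤ x → x ≤ X k + L (H k) → f x = H k := by
  obtain ⟨X, hX⟩ : ∃ X : ℕ → ℕ, ∀ k, X (k + 1) = X k + L (H k) + 1 :=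
    ⟨fun k => Nat.rec 0 (fun j r => r + L (H j) + 1) k, fun k => rfl⟩
  have hlt : ∀ k, X k + L (H k) < X (k + 1) := fun k => by rw [hX]; omega
  have hmono : StrictMono X := strictMono_nat_of_lt_succ fun k => by
    have := hlt k
    omega
  have hle : ∀ k, k ≤ X k := fun k => hmono.le_apply
  obtain ⟨κ, hκ1, hκ2⟩ : ∃ κ : ℕ → ℕ, (∀ x k, X k ≤ x → k ≤ κ x) ∧
      ∀ x k, X k ≤ x → X (κ x) ≤ x := by
    refine ⟨fun x => Nat.findGreatest (fun k => X k ≤ x) x, ?_, ?_⟩
    · intro x k hk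
      exact Nat.le_findGreatest ((hle k).trans hk) hk
    · intro x k hk
      exact Nat.findGreatest_spec (P := fun k => X k ≤ x) ((hle k).trans hk) hk
  refine ⟨X, fun x => H (κ x), ?_, hle, hlt, ?_⟩
  · refine hH.comp (tendsto_atTop.2 fun N => ?_)
    exact eventually_atTop.2 ⟨X N, fun x hx => hκ1 x N hx⟩
  · intro k x h1 h2
    have h3 : κ x = k := by
      refine le_antisymm ?_ (hκ1 x k h1)
      have h4 : X (κ x) < X (k + 1) := lt_of_le_of_lt ((hκ2 x k h1).trans h2) (hlt k)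
      have := hmono.lt_iff_lt.1 h4
      omega
    simp only [h3]

end Vale.Agent.P158
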