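import Vale.Agent.P158.Defs

/-! P158, row SEQ: slowly growing heights -/

namespace Vale.Agent.P158

open Finset MeasureTheory ProbabilityTheory Filter

theorem seq (p : ℕ → ENNReal) (hp : ∀ h, p h ≠ 0) :
    ∃ H : ℕ → ℕ, Monotone H ∧ Tendsto H atTop atTop ∧ ∑' k, p (H k) = ⊤ := by
  classical
  have hN : ∀ m, ∃ n : ℕ, 1 < (n : ENNReal) * p m := fun m =>
    ENNReal.exists_nat_mul_gt (hp m) ENNReal.one_ne_top
  choose N hN using hN
  have hN0 : ∀ m, 1 ≤ N m := fun m => by
    rcases Nat.eq_zero_or_pos (N m) with h | h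
    · have := hN m
      rw [h] at this
      simp at this
    · exact h
  let S : ℕ → ℕ := fun m => ∑ j ∈ range m, N j
  have hS : ∀ m, S (m + 1) = S m + N m := fun m => Finset.sum_range_succ _ _
  have hSm : ∀ m, m ≤ S m := by
    intro m
    induction m with
    | zero => exact Nat.zero_le _
    | succ m ih => rw [hS]; have := hN0 m; omega
  have hSmono : Monotone S := monotone_nat_of_le_succ fun m => by rw [hS]; omega
  have hex : ∀ k, ∃ m, k < S (m + 1) := fun k => ⟨k, lt_of_lt_of_le (Nat.lt_succ_self k) (hSm _)⟩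
  let H : ℕ → ℕ := fun k => Nat.find (hex k)
  have hH1 : ∀ k, k < S (H k + 1) := fun k => Nat.find_spec (hex k)
  have hH2 : ∀ k m, k < S (m + 1) → H k ≤ m := fun k m h => Nat.find_min' (hex k) h
  have hHeq : ∀ m k, S m ≤ k → k < S (m + 1) → H k = m := by
    intro m k h1 h2
    refine le_antisymm (hH2 k m h2) ?_
    by_contra hlt
    push Not at hlt
    have h3 : S (H k + 1) ≤ S m := hSmono hlt
    have := hH1 k
    omega
  have hmono : Monotone H := fun k k' hkk => hH2 k _ (lt_of_le_of_lt hkk (hH1 k'))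
  refine ⟨H, hmono, ?_, ?_⟩
  · refine tendsto_atTop_atTop.2 fun m => ⟨S m, fun k hk => ?_⟩
    have h1 := hmono hk
    have h2 : H (S m) = m := hHeq m _ le_rfl (by rw [hS]; have := hN0 m; omega)
    omega
  · have hsum : ∀ M : ℕ, (M : ENNReal) ≤ ∑ k ∈ range (S M), p (H k) := by
      intro M
      induction M with
      | zero => simp
      | succ M ih =>
        have h1 : ∑ k ∈ range (S (M + 1)), p (H k) =
            ∑ k ∈ range (S M), p (H k) + ∑ k ∈ Ico (S M) (S (M + 1)), p (H k) :=
          (Finset.sum_range_add_sum_Ico _ (hSmono (Nat.le_succ M))).symm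
        have h2 : ∑ k ∈ Ico (S M) (S (M + 1)), p (H k) = (N M : ENNReal) * p M := by
          rw [Finset.sum_congr rfl (g := fun _ => p M) (fun k hk => by
            rw [hHeq M k (Finset.mem_Ico.1 hk).1 (Finset.mem_Ico.1 hk).2])]
          rw [Finset.sum_const, Nat.card_Ico, hS, Nat.add_sub_cancel_left, nsmul_eq_mul]
        rw [h1, h2, Nat.cast_succ]
        exact add_le_add ih (hN M).le
    rw [eq_top_iff]
    refine ENNReal.le_of_forall_nnreal_lt fun r _ => ?_
    obtain ⟨M, hM⟩ := exists_nat_ge r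
    calc (r : ENNReal) ≤ (M : ENNReal) := by exact_mod_cast hM
      _ ≤ ∑ k ∈ range (S M), p (H k) := hsum M
      _ ≤ ∑' k, p (H k) := ENNReal.sum_le_tsum _

end Vale.Agent.P158
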