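import Vale.Agent.P158.Cross
import Vale.Agent.P158.Disj
import Vale.Agent.P158.Exit
import Vale.Agent.P158.Ivt
import Vale.Agent.P158.Prob
import Vale.Agent.P158.Refl
import Vale.Agent.P158.Scale
import Vale.Agent.P158.Seq
import Vale.Agent.P158.Ab

/-!
# P158: geodesic rays leave growing neighbourhoods of all coordinate lines
-/

namespace Vale.Agent.P158

open Finset MeasureTheory ProbabilityTheory Filter

namespace Main

instance : Countable (Sym2 V) := inferInstanceAs (Countable (Quot _))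

/-- the edges of a block -/
noncomputable def Blk (X : ℤ) (L h : ℕ) : Finset (Sym2 V) := High X L h ∪ Low X L h

theorem card_blk (X : ℤ) (L h : ℕ) :
    #(Blk X L h) ≤ L * (2 * h + 1) + (L + (2 * h + 1) + (2 * h + 1)) := by
  unfold Blk High Low
  refine (card_union_le _ _).trans (add_le_add ?_ ((card_union_le _ _).trans (add_le_add
    ((card_union_le _ _).trans (add_le_add ?_ ?_)) ?_)))
  · refine card_image_le.trans ?_
    rw [card_product, Int.card_Ico, Int.card_Icc]
    apply le_of_eq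
    congr 1
    · omega
    · omega
  · refine card_image_le.trans ?_
    rw [Int.card_Ico]
    omega
  · refine card_image_le.trans ?_
    rw [Int.card_Icc]
    omega
  · refine card_image_le.trans ?_
    rw [Int.card_Icc]
    omega

/-- the deterministic part -/
theorem no_ray {t : Sym2 V → ℝ} (ht : ∀ e, 0 ≤ t e) {a b : ℝ} (ha : 0 ≤ a) {L H X f : ℕ → ℕ}
    (hL : ∀ h : ℕ, a * (L h + 4 * h + 2) < b * L h) (hkX : ∀ k, k ≤ X k)
    (hf : ∀ k x, X k ≤ x → x ≤ X k + L (H k) → f x = H k)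
    (hg : ∃ᶠ k in atTop, Good t a b (X k) (L (H k)) (H k)) {v : ℕ → V} (hv : IsRay t v)
    (hlim : Tendsto (fun i => (v i).1) atTop atTop) {i0 : ℕ}
    (h : ∀ i ≥ i0, (v i).2.natAbs ≤ f (v i).1.natAbs) : False := by
  obtain ⟨i1, hi1⟩ := (hlim.eventually_ge_atTop 0).exists_forall_of_atTop
  obtain ⟨k, hk, hgk⟩ := frequently_atTop.1 hg (v (max i0 i1)).1.toNat
  have hX : (v (max i0 i1)).1 ≤ (X k : ℤ) := by
    have := hkX k
    omega
  have hstep : ∀ i, |(v (i + 1)).1 - (v i).1| ≤ 1 := by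
    intro i
    have h1 := hv.2.1 i
    unfold Adj at h1
    have h2 := abs_nonneg ((v i).2 - (v (i + 1)).2)
    rw [abs_sub_comm]
    linarith
  obtain ⟨i, j, h1, h2, h3, h4, h5⟩ := ivt hstep hlim hX (L (H k))
  refine cross ht ha (hL (H k)) hgk hv h2 h3 h4 (fun l hl1 hl2 => ?_)
  obtain ⟨h6, h7⟩ := h5 l hl1 hl2
  refine ⟨h6, h7, ?_⟩
  have h8 := h l (le_trans (le_max_left _ _) (h1.trans hl1))
  rwa [hf k (v l).1.natAbs (by omega) (by omega)] at h8

/-- the probabilistic part -/
theorem good_ae {Ω : Type*} [MeasurableSpace Ω] {P : Measure Ω} [IsProbabilityMeasure P]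
    {t : Sym2 V → Ω → ℝ} (hmeas : ∀ e, Measurable (t e)) (hind : iIndepFun t P) {G : Measure ℝ}
    [IsProbabilityMeasure G] (hG : ∀ e, P.map (t e) = G) {a b : ℝ} {L H X : ℕ → ℕ}
    (hX : ∀ k, X k + L (H k) < X (k + 1))
    (hsum : ∑' k, (G (Set.Iic a) * G (Set.Ici b)) ^
      (L (H k) * (2 * H k + 1) + (L (H k) + (2 * H k + 1) + (2 * H k + 1))) = ⊤) :
    ∀ᵐ ω ∂P, ∃ᶠ k in atTop, Good (fun e => t e ω) a b (X k) (L (H k)) (H k) := by
  classical
  have hmono : ∀ k l, k < l → X k + L (H k) < X l := by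
    intro k l hkl
    induction l with
    | zero => omega
    | succ l ih =>
      rcases Nat.lt_or_ge k l with h | h
      · have := ih h
        have := hX l
        omega
      · have : k = l := by omega
        subst this
        exact hX k
  have hdis : ∀ k l, k ≠ l → Disjoint (Blk (X k) (L (H k)) (H k)) (Blk (X l) (L (H l)) (H l)) := by
    intro k l hkl
    rcases Nat.lt_or_gt_of_ne hkl with h | h
    · exact disj (by have := hmono k l h; exact_mod_cast this)
    · exact (disj (by have := hmono l k h; exact_mod_cast this)).symm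
  let A : Sym2 V → Set ℝ := fun e =>
    if ∃ l, e ∈ High (X l) (L (H l)) (H l) then Set.Ici b else Set.Iic a
  have hA : ∀ e, MeasurableSet (A e) := by
    intro e
    simp only [A]
    split_ifs
    · exact measurableSet_Ici
    · exact measurableSet_Iic
  have hPA : ∀ e, G (Set.Iic a) * G (Set.Ici b) ≤ P (t e ⁻¹' A e) := by
    intro e
    rw [← Measure.map_apply (hmeas e) (hA e), hG e]
    simp only [A]
    split_ifs
    · exact mul_le_of_le_one_left' prob_le_one
    · exact mul_le_of_le_one_right' prob_le_one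
  have hsum' : ∑' k, ∏ e ∈ Blk (X k) (L (H k)) (H k), P (t e ⁻¹' A e) = ⊤ := by
    rw [eq_top_iff, ← hsum]
    refine ENNReal.tsum_le_tsum fun k => ?_
    calc (G (Set.Iic a) * G (Set.Ici b)) ^
        (L (H k) * (2 * H k + 1) + (L (H k) + (2 * H k + 1) + (2 * H k + 1)))
        ≤ (G (Set.Iic a) * G (Set.Ici b)) ^ #(Blk (X k) (L (H k)) (H k)) :=
          pow_le_pow_right_of_le_one' (mul_le_one' prob_le_one prob_le_one) (card_blk _ _ _)
      _ = ∏ e ∈ Blk (X k) (L (H k)) (H k), (G (Set.Iic a) * G (Set.Ici b)) := by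
          rw [prod_const]
      _ ≤ _ := prod_le_prod' fun e _ => hPA e
  have key := bc hmeas hind A hA (fun k => Blk (X k) (L (H k)) (H k))
    (fun k l hkl => hdis k l hkl) hsum'
  filter_upwards [key] with ω hω
  refine hω.mono fun k hk => ⟨fun e he => ?_, fun e he => ?_⟩
  · have h1 := hk e (mem_union_left _ he)
    simp only [A] at h1
    rw [if_pos ⟨k, he⟩] at h1
    exact h1
  · have h1 := hk e (mem_union_right _ he)
    simp only [A] at h1
    rw [if_neg] at h1
    · exact h1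
    · rintro ⟨l, hl⟩
      by_cases hkl : k = l
      · subst hkl
        exact disjoint_left.1 (high_low _ _ _) hl he
      · exact disjoint_left.1 (hdis k l hkl) (mem_union_right _ he) (mem_union_left _ hl)

/-- translation by `-c` -/
def tr (c : V) : V ≃ V := Equiv.subRight c

/-- reflection of the first coordinate -/
def rf : V ≃ V := Equiv.prodCongr (Equiv.neg ℤ) (Equiv.refl ℤ)

/-- exchange of the coordinates -/
def sw : V ≃ V := Equiv.prodComm ℤ ℤ

theorem adj_tr (c u v : V) : Adj (tr c u) (tr c v) ↔ Adj u v := by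
  simp [tr, Adj]

theorem adj_rf (u v : V) : Adj (rf u) (rf v) ↔ Adj u v := by
  have : |-u.1 - -v.1| = |u.1 - v.1| := by
    rw [show -u.1 - -v.1 = -(u.1 - v.1) by ring, abs_neg]
  unfold Adj
  change |-u.1 - -v.1| + |u.2 - v.2| = 1 ↔ _
  rw [this]

theorem adj_sw (u v : V) : Adj (sw u) (sw v) ↔ Adj u v := by
  simp [sw, Adj, add_comm]

/-- the statement for one position of the coordinate system -/
theorem one {Ω : Type*} [MeasurableSpace Ω] {P : Measure Ω} [IsProbabilityMeasure P]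
    {t : Sym2 V → Ω → ℝ} (hmeas : ∀ e, Measurable (t e)) (hind : iIndepFun t P) {G : Measure ℝ}
    [IsProbabilityMeasure G] (hG0 : G (Set.Iio 0) = 0) (hG : ∀ e, P.map (t e) = G)
    {a b : ℝ} (ha : 0 ≤ a) {L H X f : ℕ → ℕ}
    (hL : ∀ h : ℕ, a * (L h + 4 * h + 2) < b * L h) (hkX : ∀ k, k ≤ X k)
    (hX : ∀ k, X k + L (H k) < X (k + 1))
    (hf : ∀ k x, X k ≤ x → x ≤ X k + L (H k) → f x = H k)
    (hsum : ∑' k, (G (Set.Iic a) * G (Set.Ici b)) ^
      (L (H k) * (2 * H k + 1) + (L (H k) + (2 * H k + 1) + (2 * H k + 1))) = ⊤)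
    (ρ : V ≃ V) (hρ : ∀ u v, Adj (ρ u) (ρ v) ↔ Adj u v) :
    ∀ᵐ ω ∂P, ∀ v : ℕ → V, IsRay (fun e => t e ω) v →
      Tendsto (fun i => (ρ (v i)).1) atTop atTop →
      ¬ ∀ᶠ i in atTop, (ρ (v i)).2.natAbs ≤ f (ρ (v i)).1.natAbs := by
  have hinj : Function.Injective (Sym2.map ρ.symm) := Sym2.map.injective ρ.symm.injective
  have h1 := good_ae (t := fun e => t (Sym2.map ρ.symm e)) (fun e => hmeas _)
    (hind.precomp hinj) (fun e => hG _) hX hsum
  have h2 : ∀ᵐ ω ∂P, ∀ e, 0 ≤ t e ω := by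
    rw [ae_all_iff]
    intro e
    have h3 : P (t e ⁻¹' Set.Iio 0) = 0 := by
      rw [← Measure.map_apply (hmeas e) measurableSet_Iio, hG e, hG0]
    rw [ae_iff]
    simpa [Set.preimage, not_le] using h3
  filter_upwards [h1, h2] with ω hω h0 v hv hlim hev
  obtain ⟨i0, hi0⟩ := hev.exists_forall_of_atTop
  exact no_ray (fun e => h0 _) ha hL hkX hf hω (ray_map ρ hρ hv) hlim hi0

end Main

/-- Geodesic rays leave growing neighbourhoods of all coordinate lines. -/
theorem main {G : Measure ℝ} [IsProbabilityMeasure G] (hG0 : G (Set.Iio 0) = 0)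
    (hGa : ∀ x, G {x} = 0) :
    ∃ f : ℕ → ℕ, Tendsto f atTop atTop ∧
      ∀ {Ω : Type} [MeasurableSpace Ω] (P : Measure Ω) [IsProbabilityMeasure P]
        (t : Sym2 V → Ω → ℝ), (∀ e, Measurable (t e)) → (∀ e, P.map (t e) = G) → iIndepFun t P →
        ∀ᵐ ω ∂P, ∀ v : ℕ → V, IsRay (fun e => t e ω) v → ∀ c : V,
          (∃ᶠ i in atTop, f ((v i).1 - c.1).natAbs < ((v i).2 - c.2).natAbs) ∧
          (∃ᶠ i in atTop, f ((v i).2 - c.2).natAbs < ((v i).1 - c.1).natAbs) := by
  obtain ⟨a, b, ha, hab, hGa, hGb⟩ := two_points G hG0 hGa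
  have hex : ∀ h : ℕ, ∃ L : ℕ, a * (L + 4 * h + 2) < b * L := by
    intro h
    obtain ⟨L, hL⟩ := exists_nat_gt (a * (4 * h + 2) / (b - a))
    refine ⟨L, ?_⟩
    rw [div_lt_iff₀ (by linarith)] at hL
    nlinarith
  choose L hL using hex
  obtain ⟨H, -, hH, hsum⟩ := seq (fun h => (G (Set.Iic a) * G (Set.Ici b)) ^
      (L h * (2 * h + 1) + (L h + (2 * h + 1) + (2 * h + 1))))
    (fun h => pow_ne_zero _ (mul_ne_zero hGa hGb))
  obtain ⟨X, f, hf, hkX, hX, hfX⟩ := scale H L hH
  refine ⟨f, hf, ?_⟩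
  intro Ω _ P _ t hmeas hlaw hind
  have key : ∀ c : V, ∀ᵐ ω ∂P,
      (∀ v : ℕ → V, IsRay (fun e => t e ω) v →
        ¬ ∀ᶠ i in atTop, ((v i).2 - c.2).natAbs ≤ f ((v i).1 - c.1).natAbs) ∧
      (∀ v : ℕ → V, IsRay (fun e => t e ω) v →
        ¬ ∀ᶠ i in atTop, ((v i).1 - c.1).natAbs ≤ f ((v i).2 - c.2).natAbs) := by
    intro c
    have e1 := Main.one hmeas hind hG0 hlaw ha hL hkX hX hfX hsum (Main.tr c)
      (fun u v => Main.adj_tr c u v)
    have e2 := Main.one hmeas hind hG0 hlaw ha hL hkX hX hfX hsum ((Main.tr c).trans Main.rf)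
      (fun u v => (Main.adj_rf _ _).trans (Main.adj_tr c u v))
    have e3 := Main.one hmeas hind hG0 hlaw ha hL hkX hX hfX hsum ((Main.tr c).trans Main.sw)
      (fun u v => (Main.adj_sw _ _).trans (Main.adj_tr c u v))
    have e4 := Main.one hmeas hind hG0 hlaw ha hL hkX hX hfX hsum
      (((Main.tr c).trans Main.sw).trans Main.rf)
      (fun u v => (Main.adj_rf _ _).trans ((Main.adj_sw _ _).trans (Main.adj_tr c u v)))
    filter_upwards [e1, e2, e3, e4] with ω h1 h2 h3 h4
    refine ⟨fun v hv hev => ?_, fun v hv hev => ?_⟩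
    · obtain ⟨i0, hi0⟩ := hev.exists_forall_of_atTop
      have hadj : ∀ i, Adj (Main.tr c (v i)) (Main.tr c (v (i + 1))) := fun i =>
        (Main.adj_tr c _ _).2 (hv.2.1 i)
      rcases exit f ((Main.tr c).injective.comp hv.1) hadj i0 hi0 with h | h
      · exact h1 v hv h hev
      · refine h2 v hv ?_ ?_
        · exact tendsto_neg_atBot_atTop.comp h
        · refine hev.mono fun i hi => ?_
          change ((v i).2 - c.2).natAbs ≤ f (-((v i).1 - c.1)).natAbs
          rw [Int.natAbs_neg]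
          exact hi
    · obtain ⟨i0, hi0⟩ := hev.exists_forall_of_atTop
      have hadj : ∀ i, Adj (Main.sw (Main.tr c (v i))) (Main.sw (Main.tr c (v (i + 1)))) :=
        fun i => (Main.adj_sw _ _).2 ((Main.adj_tr c _ _).2 (hv.2.1 i))
      rcases exit f (((Main.tr c).trans Main.sw).injective.comp hv.1) hadj i0 hi0 with h | h
      · exact h3 v hv h hev
      · refine h4 v hv ?_ ?_
        · exact tendsto_neg_atBot_atTop.comp h
        · refine hev.mono fun i hi => ?_
          change ((v i).1 - c.1).natAbs ≤ f (-((v i).2 - c.2)).natAbs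
          rw [Int.natAbs_neg]
          exact hi
  filter_upwards [ae_all_iff.2 key] with ω hω v hv c
  obtain ⟨h1, h2⟩ := hω c
  refine ⟨?_, ?_⟩
  · have := h1 v hv
    rw [not_eventually] at this
    exact this.mono fun i hi => not_le.1 hi
  · have := h2 v hv
    rw [not_eventually] at this
    exact this.mono fun i hi => not_le.1 hi

end Vale.Agent.P158
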