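import Vale.Agent.P158.Cross2
import Vale.Agent.P158.Disj2
import Vale.Agent.P158.Card2
import Vale.Agent.P158.Floor
import Vale.Agent.P158.Ivt2
import Vale.Agent.P158.Main

/-!
# P158: geodesic rays leave growing neighbourhoods of all lines
-/

namespace Vale.Agent.P158

open Finset MeasureTheory ProbabilityTheory Filter

namespace Main2

/-- the number of edges of a block is at most this -/
def num (L h : ℕ) : ℕ :=
  L * (2 * h + 1) + L * (2 * h) + ((2 * h + 1) + (2 * h + 1) + L + L)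

/-- the deterministic part -/
theorem no_ray {g : ℤ → ℤ} (hs : Stair g) {t : Sym2 V → ℝ} (ht : ∀ e, 0 ≤ t e) {a b : ℝ}
    (ha : 0 ≤ a) (hab : a < b) {L H X f : ℕ → ℕ} (hL1 : ∀ h, 1 ≤ L h)
    (hL : ∀ h : ℕ, a * (L h + 4 * h + 2) < b * (L h - 2 * h)) (hkX : ∀ k, k ≤ X k)
    (hf : ∀ k x, X k ≤ x → x ≤ X k + L (H k) → f x = H k)
    (hg : ∃ᶠ k in atTop, Good2 g t a b (X k) (L (H k)) (H k)) {v : ℕ → V} (hv : IsRay t v)
    (hlim : Tendsto (fun i => (v i).1) atTop atTop) {i0 : ℕ}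
    (h : ∀ i ≥ i0, ((v i).2 - g (v i).1).natAbs ≤ f (v i).1.natAbs) : False := by
  obtain ⟨k, hk, hgk⟩ := frequently_atTop.1 hg (v i0).1.toNat
  have hX : (v i0).1 ≤ (X k : ℤ) := by
    have := hkX k
    omega
  have hstep : ∀ i, |(v (i + 1)).1 - (v i).1| ≤ 1 := by
    intro i
    have h1 := hv.2.1 i
    unfold Adj at h1
    have h2 := abs_nonneg ((v i).2 - (v (i + 1)).2)
    rw [abs_sub_comm]
    linarith
  obtain ⟨i, j, h1, h2, h3, h4, h5⟩ := ivt2 hstep hlim hX (hL1 (H k))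
  have h5' : ∀ l, i ≤ l → l ≤ j → (X k : ℤ) ≤ (v l).1 ∧ (v l).1 ≤ X k + L (H k) := by
    intro l hl1 hl2
    rcases Nat.lt_or_ge i l with h6 | h6
    · rcases Nat.lt_or_ge l j with h7 | h7
      · obtain ⟨h8, h9⟩ := h5 l h6 h7
        exact ⟨h8.le, h9.le⟩
      · have : l = j := by omega
        subst this
        rw [h4]
        constructor <;> omega
    · have : l = i := by omega
      subst this
      rw [h3]
      constructor <;> omega
  refine cross2 hs ht ha hab (hL (H k)) hgk hv h2 h3 h4 h5 (fun l hl1 hl2 => ?_)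
  obtain ⟨h6, h7⟩ := h5' l hl1 hl2
  have h8 := h l (h1.trans hl1)
  rwa [hf k (v l).1.natAbs (by omega) (by omega)] at h8

/-- the probabilistic part -/
theorem good_ae {g : ℤ → ℤ} (hs : Stair g) {Ω : Type*} [MeasurableSpace Ω] {P : Measure Ω}
    [IsProbabilityMeasure P]
    {t : Sym2 V → Ω → ℝ} (hmeas : ∀ e, Measurable (t e)) (hind : iIndepFun t P) {G : Measure ℝ}
    [IsProbabilityMeasure G] (hG : ∀ e, P.map (t e) = G) {a b : ℝ} {L H X : ℕ → ℕ}
    (hL1 : ∀ h, 1 ≤ L h) (hX : ∀ k, X k + L (H k) < X (k + 1))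
    (hsum : ∑' k, (G (Set.Iic a) * G (Set.Ici b)) ^ num (L (H k)) (H k) = ⊤) :
    ∀ᵐ ω ∂P, ∃ᶠ k in atTop, Good2 g (fun e => t e ω) a b (X k) (L (H k)) (H k) := by
  classical
  have hmono : ∀ k l, k < l → X k + L (H k) < X l := by
    intro k l hkl
    induction l with
    | zero => omega
    | succ l ih =>
      rcases Nat.lt_or_ge k l with h | h
      · have := ih h
        have := hX l
        omega
      · have : k = l := by omega
        subst this
        exact hX k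
  obtain ⟨B, hB⟩ : ∃ B : ℕ → Finset (Sym2 V), B = fun k =>
    High2 g (X k) (L (H k)) (H k) ∪ Low2 g (X k) (L (H k)) (H k) := ⟨_, rfl⟩
  have hdis : ∀ k l, k ≠ l → Disjoint (B k) (B l) := by
    intro k l hkl
    rw [hB]
    rcases Nat.lt_or_gt_of_ne hkl with h | h
    · exact disj2 g (by have := hmono k l h; exact_mod_cast this)
    · exact (disj2 g (by have := hmono l k h; exact_mod_cast this)).symm
  let A : Sym2 V → Set ℝ := fun e =>
    if ∃ l, e ∈ High2 g (X l) (L (H l)) (H l) then Set.Ici b else Set.Iic a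
  have hA : ∀ e, MeasurableSet (A e) := by
    intro e
    simp only [A]
    split_ifs
    · exact measurableSet_Ici
    · exact measurableSet_Iic
  have hPA : ∀ e, G (Set.Iic a) * G (Set.Ici b) ≤ P (t e ⁻¹' A e) := by
    intro e
    rw [← Measure.map_apply (hmeas e) (hA e), hG e]
    simp only [A]
    split_ifs
    · exact mul_le_of_le_one_left' prob_le_one
    · exact mul_le_of_le_one_right' prob_le_one
  have hsum' : ∑' k, ∏ e ∈ B k, P (t e ⁻¹' A e) = ⊤ := by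
    rw [eq_top_iff, ← hsum]
    refine ENNReal.tsum_le_tsum fun k => ?_
    have hcard : #(B k) ≤ num (L (H k)) (H k) := by
      rw [hB]
      exact card2 g _ _ _
    calc (G (Set.Iic a) * G (Set.Ici b)) ^ num (L (H k)) (H k)
        ≤ (G (Set.Iic a) * G (Set.Ici b)) ^ #(B k) :=
          pow_le_pow_right_of_le_one' (mul_le_one' prob_le_one prob_le_one) hcard
      _ = ∏ e ∈ B k, (G (Set.Iic a) * G (Set.Ici b)) := by
          rw [prod_const]
      _ ≤ _ := prod_le_prod' fun e _ => hPA e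
  have key := bc hmeas hind A hA B (fun k l hkl => hdis k l hkl) hsum'
  filter_upwards [key] with ω hω
  refine hω.mono fun k hk => ⟨fun e he => ?_, fun e he => ?_⟩
  · have h1 := hk e (by rw [hB]; exact mem_union_left _ he)
    simp only [A] at h1
    rw [if_pos ⟨k, he⟩] at h1
    exact h1
  · have h1 := hk e (by rw [hB]; exact mem_union_right _ he)
    simp only [A] at h1
    rw [if_neg] at h1
    · exact h1
    · rintro ⟨l, hl⟩
      by_cases hkl : k = l
      · subst hkl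
        exact disjoint_left.1 (high_low2 hs _ _ _ (hL1 _)) hl he
      · have h2 := hdis k l hkl
        rw [hB] at h2
        exact disjoint_left.1 h2 (mem_union_right _ he) (mem_union_left _ hl)

/-- the statement for one automorphism -/
theorem one {g : ℤ → ℤ} (hs : Stair g) {Ω : Type*} [MeasurableSpace Ω] {P : Measure Ω}
    [IsProbabilityMeasure P]
    {t : Sym2 V → Ω → ℝ} (hmeas : ∀ e, Measurable (t e)) (hind : iIndepFun t P) {G : Measure ℝ}
    [IsProbabilityMeasure G] (hG0 : G (Set.Iio 0) = 0) (hG : ∀ e, P.map (t e) = G)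
    {a b : ℝ} (ha : 0 ≤ a) (hab : a < b) {L H X f : ℕ → ℕ} (hL1 : ∀ h, 1 ≤ L h)
    (hL : ∀ h : ℕ, a * (L h + 4 * h + 2) < b * (L h - 2 * h)) (hkX : ∀ k, k ≤ X k)
    (hX : ∀ k, X k + L (H k) < X (k + 1))
    (hf : ∀ k x, X k ≤ x → x ≤ X k + L (H k) → f x = H k)
    (hsum : ∑' k, (G (Set.Iic a) * G (Set.Ici b)) ^ num (L (H k)) (H k) = ⊤)
    (ρ : V ≃ V) (hρ : ∀ u v, Adj (ρ u) (ρ v) ↔ Adj u v) :
    ∀ᵐ ω ∂P, ∀ v : ℕ → V, IsRay (fun e => t e ω) v →
      Tendsto (fun i => (ρ (v i)).1) atTop atTop →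
      ¬ ∀ᶠ i in atTop, ((ρ (v i)).2 - g (ρ (v i)).1).natAbs ≤ f (ρ (v i)).1.natAbs := by
  have hinj : Function.Injective (Sym2.map ρ.symm) := Sym2.map.injective ρ.symm.injective
  have h1 := good_ae hs (t := fun e => t (Sym2.map ρ.symm e)) (fun e => hmeas _)
    (hind.precomp hinj) (fun e => hG _) hL1 hX hsum
  have h2 : ∀ᵐ ω ∂P, ∀ e, 0 ≤ t e ω := by
    rw [ae_all_iff]
    intro e
    have h3 : P (t e ⁻¹' Set.Iio 0) = 0 := by
      rw [← Measure.map_apply (hmeas e) measurableSet_Iio, hG e, hG0]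
    rw [ae_iff]
    simpa [Set.preimage, not_le] using h3
  filter_upwards [h1, h2] with ω hω h0 v hv hlim hev
  obtain ⟨i0, hi0⟩ := hev.exists_forall_of_atTop
  exact no_ray hs (fun e => h0 _) ha hab hL1 hL hkX hf hω (ray_map ρ hρ hv) hlim hi0

/-- changes of sign of the coordinates -/
def sg (p q : ℤˣ) : V ≃ V := Equiv.prodCongr (Units.mulLeft p) (Units.mulLeft q)

theorem abs_unit (p : ℤˣ) (x : ℤ) : |(p : ℤ) * x| = |x| := by
  rcases Int.units_eq_one_or p with rfl | rfl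
  · simp
  · simp

theorem adj_sg (p q : ℤˣ) (u v : V) : Adj (sg p q u) (sg p q v) ↔ Adj u v := by
  unfold Adj
  change |(p : ℤ) * u.1 - (p : ℤ) * v.1| + |(q : ℤ) * u.2 - (q : ℤ) * v.2| = 1 ↔ _
  rw [← mul_sub, ← mul_sub, abs_unit, abs_unit]

/-- from the staircase to the line -/
theorem line {α : ℝ} {x y : ℤ} {F C : ℕ} (hF : 2 * C + 2 ≤ F)
    (h : |(y : ℝ) - α * x| ≤ ((F / 2 : ℕ) : ℝ) + C) : (y - ⌊α * x⌋).natAbs ≤ F := by
  have h1 := Int.floor_le (α * x)
  have h2 := Int.lt_floor_add_one (α * x)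
  have h3 : ((F / 2 : ℕ) : ℝ) ≤ (F : ℝ) / 2 := Nat.cast_div_le
  have h4 : (2 * (C : ℝ) + 2) ≤ F := by exact_mod_cast hF
  have h5 : |(y : ℝ) - ⌊α * x⌋| ≤ F := by
    rw [abs_le] at h ⊢
    constructor <;> linarith
  have h6 : ((y - ⌊α * x⌋).natAbs : ℝ) = |(y : ℝ) - ⌊α * x⌋| := by
    rw [Nat.cast_natAbs]
    push_cast
    rfl
  have h7 : ((y - ⌊α * x⌋).natAbs : ℝ) ≤ F := by rw [h6]; exact h5
  exact_mod_cast h7

/-- one position of the coordinate system, real form -/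
theorem real_one {β : ℝ} (hβ0 : 0 ≤ β) (hβ1 : β ≤ 1) {Ω : Type*} [MeasurableSpace Ω]
    {P : Measure Ω} [IsProbabilityMeasure P]
    {t : Sym2 V → Ω → ℝ} (hmeas : ∀ e, Measurable (t e)) (hind : iIndepFun t P) {G : Measure ℝ}
    [IsProbabilityMeasure G] (hG0 : G (Set.Iio 0) = 0) (hG : ∀ e, P.map (t e) = G)
    {a b : ℝ} (ha : 0 ≤ a) (hab : a < b) {L H X F : ℕ → ℕ} (hL1 : ∀ h, 1 ≤ L h)
    (hL : ∀ h : ℕ, a * (L h + 4 * h + 2) < b * (L h - 2 * h)) (hkX : ∀ k, k ≤ X k)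
    (hX : ∀ k, X k + L (H k) < X (k + 1))
    (hf : ∀ k x, X k ≤ x → x ≤ X k + L (H k) → F x = H k) (hF : Tendsto F atTop atTop)
    (hsum : ∑' k, (G (Set.Iic a) * G (Set.Ici b)) ^ num (L (H k)) (H k) = ⊤)
    (ρ : V ≃ V) (hρ : ∀ u v, Adj (ρ u) (ρ v) ↔ Adj u v) :
    ∀ᵐ ω ∂P, ∀ v : ℕ → V, IsRay (fun e => t e ω) v → ∀ C : ℕ,
      Tendsto (fun i => (ρ (v i)).1) atTop atTop →
      ¬ ∀ᶠ i in atTop, |((ρ (v i)).2 : ℝ) - β * (ρ (v i)).1| ≤
        ((F (ρ (v i)).1.natAbs / 2 : ℕ) : ℝ) + C := by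
  have h1 := one (stair_floor hβ0 hβ1) hmeas hind hG0 hG ha hab hL1 hL hkX hX hf hsum ρ hρ
  filter_upwards [h1] with ω hω v hv C hlim hev
  apply hω v hv hlim
  have h2 : Tendsto (fun i => (ρ (v i)).1.natAbs) atTop atTop := by
    rw [tendsto_atTop]
    intro m
    filter_upwards [hlim.eventually_ge_atTop (m : ℤ)] with i hi
    omega
  filter_upwards [hev, (hF.comp h2).eventually_ge_atTop (2 * C + 2)] with i h3 h4
  exact line h4 h3

end Main2

/-- Geodesic rays leave growing neighbourhoods of all lines of slope at most one, and of the lines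
obtained by exchanging the coordinates. -/
theorem main2 {G : Measure ℝ} [IsProbabilityMeasure G] (hG0 : G (Set.Iio 0) = 0)
    (hGa : ∀ x, G {x} = 0) :
    ∃ f : ℕ → ℕ, Tendsto f atTop atTop ∧
      ∀ (Ω : Type) [MeasurableSpace Ω] (P : Measure Ω) [IsProbabilityMeasure P]
        (t : Sym2 V → Ω → ℝ), (∀ e, Measurable (t e)) → (∀ e, P.map (t e) = G) → iIndepFun t P →
        ∀ α : ℝ, |α| ≤ 1 →
        ∀ᵐ ω ∂P, ∀ v : ℕ → V, IsRay (fun e => t e ω) v → ∀ C : ℕ,
          (∃ᶠ i in atTop, (f (v i).1.natAbs : ℝ) + C < |((v i).2 : ℝ) - α * (v i).1|) ∧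
          (∃ᶠ i in atTop, (f (v i).2.natAbs : ℝ) + C < |((v i).1 : ℝ) - α * (v i).2|) := by
  obtain ⟨a, b, ha, hab, hGa, hGb⟩ := two_points G hG0 hGa
  have hex : ∀ h : ℕ, ∃ L : ℕ, 1 ≤ L ∧ a * (L + 4 * h + 2) < b * (L - 2 * h) := by
    intro h
    obtain ⟨L, hL⟩ := exists_nat_gt ((a * (4 * h + 2) + b * (2 * h)) / (b - a))
    have hb : 0 ≤ b := by linarith
    have h0 : 0 ≤ (a * (4 * h + 2) + b * (2 * h)) / (b - a) := by
      apply div_nonneg _ (by linarith)
      positivity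
    refine ⟨L, ?_, ?_⟩
    · have : (0 : ℝ) < L := lt_of_le_of_lt h0 hL
      exact_mod_cast this
    · rw [div_lt_iff₀ (by linarith)] at hL
      nlinarith
  choose L hL1 hL using hex
  obtain ⟨H, -, hH, hsum⟩ := seq (fun h => (G (Set.Iic a) * G (Set.Ici b)) ^ Main2.num (L h) h)
    (fun h => pow_ne_zero _ (mul_ne_zero hGa hGb))
  obtain ⟨X, F, hF, hkX, hX, hfX⟩ := scale H L hH
  refine ⟨fun n => F n / 2, ?_, ?_⟩
  · rw [tendsto_atTop]
    intro m
    filter_upwards [hF.eventually_ge_atTop (2 * m)] with n hn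
    omega
  intro Ω _ P _ t hmeas hlaw hind α hα
  obtain ⟨q, hq⟩ : ∃ q : ℤˣ, α = (q : ℤ) * |α| := by
    rcases le_or_gt 0 α with h | h
    · exact ⟨1, by simp [abs_of_nonneg h]⟩
    · exact ⟨-1, by simp [abs_of_neg h]⟩
  have hev : ∀ (w : V ≃ V), (∀ u v, Adj (w u) (w v) ↔ Adj u v) → ∀ᵐ ω ∂P, ∀ v : ℕ → V,
      IsRay (fun e => t e ω) v → ∀ C : ℕ,
      ¬ ∀ᶠ i in atTop, |((w (v i)).2 : ℝ) - α * (w (v i)).1| ≤
        ((F (w (v i)).1.natAbs / 2 : ℕ) : ℝ) + C := by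
    intro w hw
    have key := fun p : ℤˣ => Main2.real_one (abs_nonneg α) hα hmeas hind hG0 hlaw ha hab hL1 hL hkX
      hX hfX hF hsum (w.trans (Main2.sg p (p * q)))
      (fun u v => (Main2.adj_sg _ _ _ _).trans (hw u v))
    filter_upwards [key 1, key (-1)] with ω h1 h2 v hv C hevt
    obtain ⟨i0, hi0⟩ := hevt.exists_forall_of_atTop
    have hbound : ∀ i ≥ i0, (w (v i)).2.natAbs ≤
        F (w (v i)).1.natAbs / 2 + C + (w (v i)).1.natAbs := by
      intro i hi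
      have h3 := hi0 i hi
      have h4 : |((w (v i)).2 : ℝ)| ≤ |((w (v i)).2 : ℝ) - α * (w (v i)).1| +
          |α * (w (v i)).1| := by
        have := abs_add_le (((w (v i)).2 : ℝ) - α * (w (v i)).1) (α * (w (v i)).1)
        rwa [sub_add_cancel] at this
      have h5 : |α * ((w (v i)).1 : ℝ)| ≤ |((w (v i)).1 : ℝ)| := by
        rw [abs_mul]
        exact mul_le_of_le_one_left (abs_nonneg _) hα
      have h6 : ((w (v i)).2.natAbs : ℝ) ≤
          ((F (w (v i)).1.natAbs / 2 : ℕ) : ℝ) + C + ((w (v i)).1.natAbs : ℝ) := by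
        rw [Nat.cast_natAbs, Nat.cast_natAbs]
        push_cast
        push_cast at h3
        linarith
      exact_mod_cast h6
    have hadj : ∀ i, Adj (w (v i)) (w (v (i + 1))) := fun i => (hw _ _).2 (hv.2.1 i)
    have habs : ∀ (p : ℤˣ) (x y : ℤ),
        |(((p * q : ℤˣ) : ℤ) * y : ℤ) - |α| * (((p : ℤ) * x : ℤ) : ℝ)| = |(y : ℝ) - α * x| := by
      intro p x y
      have h7 : ((((p * q : ℤˣ) : ℤ) * y : ℤ) : ℝ) - |α| * (((p : ℤ) * x : ℤ) : ℝ) =
          ((p : ℤ) : ℝ) * ((q : ℤ) : ℝ) * ((y : ℝ) - α * x) := by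
        have hqq : ((q : ℤ) : ℝ) * ((q : ℤ) : ℝ) = 1 := by
          rcases Int.units_eq_one_or q with rfl | rfl <;> simp
        have h8 : ((q : ℤ) : ℝ) * α = |α| := by
          calc ((q : ℤ) : ℝ) * α = ((q : ℤ) : ℝ) * (((q : ℤ) : ℝ) * |α|) := by rw [← hq]
            _ = |α| := by rw [← mul_assoc, hqq, one_mul]
        rw [← h8]
        push_cast
        ring
      rw [h7]
      rcases Int.units_eq_one_or p with rfl | rfl <;> rcases Int.units_eq_one_or q with rfl | rfl <;>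
        simp [abs_sub_comm]
    rcases exit (fun n => F n / 2 + C + n) (w.injective.comp hv.1) hadj i0 hbound with h | h
    · apply h1 v hv C
      · refine h.congr fun i => ?_
        change (w (v i)).1 = ((1 : ℤˣ) : ℤ) * (w (v i)).1
        simp
      · refine hevt.mono fun i hi => ?_
        change |((((1 : ℤˣ) * q : ℤˣ) : ℤ) * (w (v i)).2 : ℤ) -
          |α| * (((((1 : ℤˣ) : ℤ) * (w (v i)).1 : ℤ)) : ℝ)| ≤
          ((F (((1 : ℤˣ) : ℤ) * (w (v i)).1).natAbs / 2 : ℕ) : ℝ) + C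
        rw [habs]
        simpa using hi
    · apply h2 v hv C
      · refine (tendsto_neg_atBot_atTop.comp h).congr fun i => ?_
        change -(w (v i)).1 = ((-1 : ℤˣ) : ℤ) * (w (v i)).1
        simp
      · refine hevt.mono fun i hi => ?_
        change |((((-1 : ℤˣ) * q : ℤˣ) : ℤ) * (w (v i)).2 : ℤ) -
          |α| * (((((-1 : ℤˣ) : ℤ) * (w (v i)).1 : ℤ)) : ℝ)| ≤
          ((F (((-1 : ℤˣ) : ℤ) * (w (v i)).1).natAbs / 2 : ℕ) : ℝ) + C
        rw [habs]
        have hneg : ((((-1 : ℤˣ) : ℤ)) * (w (v i)).1).natAbs = (w (v i)).1.natAbs := by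
          simp
        rw [hneg]
        exact hi
  filter_upwards [hev (Equiv.refl V) (fun u v => Iff.rfl), hev Main.sw Main.adj_sw] with ω h1 h2 v hv C
  refine ⟨?_, ?_⟩
  · have := h1 v hv C
    rw [not_eventually] at this
    exact this.mono fun i hi => not_le.1 hi
  · have := h2 v hv C
    rw [not_eventually] at this
    exact this.mono fun i hi => not_le.1 hi

end Vale.Agent.P158
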