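import Vale.Agent.P158.SumLog
import Vale.Agent.P158.Grow
import Vale.Agent.P158.Main2

/-!
# P158: explicit width of the neighbourhoods
-/

namespace Vale.Agent.P158

open Finset MeasureTheory ProbabilityTheory Filter

/-- The theorem for given blocks. -/
theorem core {G : Measure ℝ} [IsProbabilityMeasure G] (hG0 : G (Set.Iio 0) = 0)
    {a b : ℝ} (ha : 0 ≤ a) (hab : a < b) {L H X F : ℕ → ℕ} (hL1 : ∀ h, 1 ≤ L h)
    (hL : ∀ h : ℕ, a * (L h + 4 * h + 2) < b * (L h - 2 * h)) (hkX : ∀ k, k ≤ X k)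
    (hX : ∀ k, X k + L (H k) < X (k + 1))
    (hfX : ∀ k x, X k ≤ x → x ≤ X k + L (H k) → F x = H k) (hF : Tendsto F atTop atTop)
    (hsum : ∑' k, (G (Set.Iic a) * G (Set.Ici b)) ^ Main2.num (L (H k)) (H k) = ⊤) :
      ∀ (Ω : Type) [MeasurableSpace Ω] (P : Measure Ω) [IsProbabilityMeasure P]
        (t : Sym2 V → Ω → ℝ), (∀ e, Measurable (t e)) → (∀ e, P.map (t e) = G) → iIndepFun t P →
        ∀ α : ℝ, |α| ≤ 1 →
        ∀ᵐ ω ∂P, ∀ v : ℕ → V, IsRay (fun e => t e ω) v → ∀ C : ℕ,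
          (∃ᶠ i in atTop, ((F (v i).1.natAbs / 2 : ℕ) : ℝ) + C <
            |((v i).2 : ℝ) - α * (v i).1|) ∧
          (∃ᶠ i in atTop, ((F (v i).2.natAbs / 2 : ℕ) : ℝ) + C <
            |((v i).1 : ℝ) - α * (v i).2|) := by
  intro Ω _ P _ t hmeas hlaw hind α hα
  obtain ⟨q, hq⟩ : ∃ q : ℤˣ, α = (q : ℤ) * |α| := by
    rcases le_or_gt 0 α with h | h
    · exact ⟨1, by simp [abs_of_nonneg h]⟩
    · exact ⟨-1, by simp [abs_of_neg h]⟩
  have hev : ∀ (w : V ≃ V), (∀ u v, Adj (w u) (w v) ↔ Adj u v) → ∀ᵐ ω ∂P, ∀ v : ℕ → V,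
      IsRay (fun e => t e ω) v → ∀ C : ℕ,
      ¬ ∀ᶠ i in atTop, |((w (v i)).2 : ℝ) - α * (w (v i)).1| ≤
        ((F (w (v i)).1.natAbs / 2 : ℕ) : ℝ) + C := by
    intro w hw
    have key := fun p : ℤˣ => Main2.real_one (abs_nonneg α) hα hmeas hind hG0 hlaw ha hab hL1 hL hkX
      hX hfX hF hsum (w.trans (Main2.sg p (p * q)))
      (fun u v => (Main2.adj_sg _ _ _ _).trans (hw u v))
    filter_upwards [key 1, key (-1)] with ω h1 h2 v hv C hevt
    obtain ⟨i0, hi0⟩ := hevt.exists_forall_of_atTop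
    have hbound : ∀ i ≥ i0, (w (v i)).2.natAbs ≤
        F (w (v i)).1.natAbs / 2 + C + (w (v i)).1.natAbs := by
      intro i hi
      have h3 := hi0 i hi
      have h4 : |((w (v i)).2 : ℝ)| ≤ |((w (v i)).2 : ℝ) - α * (w (v i)).1| +
          |α * (w (v i)).1| := by
        have := abs_add_le (((w (v i)).2 : ℝ) - α * (w (v i)).1) (α * (w (v i)).1)
        rwa [sub_add_cancel] at this
      have h5 : |α * ((w (v i)).1 : ℝ)| ≤ |((w (v i)).1 : ℝ)| := by
        rw [abs_mul]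
        exact mul_le_of_le_one_left (abs_nonneg _) hα
      have h6 : ((w (v i)).2.natAbs : ℝ) ≤
          ((F (w (v i)).1.natAbs / 2 : ℕ) : ℝ) + C + ((w (v i)).1.natAbs : ℝ) := by
        rw [Nat.cast_natAbs, Nat.cast_natAbs]
        push_cast
        push_cast at h3
        linarith
      exact_mod_cast h6
    have hadj : ∀ i, Adj (w (v i)) (w (v (i + 1))) := fun i => (hw _ _).2 (hv.2.1 i)
    have habs : ∀ (p : ℤˣ) (x y : ℤ),
        |(((p * q : ℤˣ) : ℤ) * y : ℤ) - |α| * (((p : ℤ) * x : ℤ) : ℝ)| = |(y : ℝ) - α * x| := by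
      intro p x y
      have h7 : ((((p * q : ℤˣ) : ℤ) * y : ℤ) : ℝ) - |α| * (((p : ℤ) * x : ℤ) : ℝ) =
          ((p : ℤ) : ℝ) * ((q : ℤ) : ℝ) * ((y : ℝ) - α * x) := by
        have hqq : ((q : ℤ) : ℝ) * ((q : ℤ) : ℝ) = 1 := by
          rcases Int.units_eq_one_or q with rfl | rfl <;> simp
        have h8 : ((q : ℤ) : ℝ) * α = |α| := by
          calc ((q : ℤ) : ℝ) * α = ((q : ℤ) : ℝ) * (((q : ℤ) : ℝ) * |α|) := by rw [← hq]
            _ = |α| := by rw [← mul_assoc, hqq, one_mul]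
        rw [← h8]
        push_cast
        ring
      rw [h7]
      rcases Int.units_eq_one_or p with rfl | rfl <;> rcases Int.units_eq_one_or q with rfl | rfl <;>
        simp [abs_sub_comm]
    rcases exit (fun n => F n / 2 + C + n) (w.injective.comp hv.1) hadj i0 hbound with h | h
    · apply h1 v hv C
      · refine h.congr fun i => ?_
        change (w (v i)).1 = ((1 : ℤˣ) : ℤ) * (w (v i)).1
        simp
      · refine hevt.mono fun i hi => ?_
        change |((((1 : ℤˣ) * q : ℤˣ) : ℤ) * (w (v i)).2 : ℤ) -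
          |α| * (((((1 : ℤˣ) : ℤ) * (w (v i)).1 : ℤ)) : ℝ)| ≤
          ((F (((1 : ℤˣ) : ℤ) * (w (v i)).1).natAbs / 2 : ℕ) : ℝ) + C
        rw [habs]
        simpa using hi
    · apply h2 v hv C
      · refine (tendsto_neg_atBot_atTop.comp h).congr fun i => ?_
        change -(w (v i)).1 = ((-1 : ℤˣ) : ℤ) * (w (v i)).1
        simp
      · refine hevt.mono fun i hi => ?_
        change |((((-1 : ℤˣ) * q : ℤˣ) : ℤ) * (w (v i)).2 : ℤ) -
          |α| * (((((-1 : ℤˣ) : ℤ) * (w (v i)).1 : ℤ)) : ℝ)| ≤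
          ((F (((-1 : ℤˣ) : ℤ) * (w (v i)).1).natAbs / 2 : ℕ) : ℝ) + C
        rw [habs]
        have hneg : ((((-1 : ℤˣ) : ℤ)) * (w (v i)).1).natAbs = (w (v i)).1.natAbs := by
          simp
        rw [hneg]
        exact hi
  filter_upwards [hev (Equiv.refl V) (fun u v => Iff.rfl), hev Main.sw Main.adj_sw] with ω h1 h2 v hv C
  refine ⟨?_, ?_⟩
  · have := h1 v hv C
    rw [not_eventually] at this
    exact this.mono fun i hi => not_le.1 hi
  · have := h2 v hv C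
    rw [not_eventually] at this
    exact this.mono fun i hi => not_le.1 hi


/-- Explicit width. -/
theorem main3 {G : Measure ℝ} [IsProbabilityMeasure G] (hG0 : G (Set.Iio 0) = 0)
    (hGa : ∀ x, G {x} = 0) :
    ∃ κ : ℝ, 0 < κ ∧
      ∀ (Ω : Type) [MeasurableSpace Ω] (P : Measure Ω) [IsProbabilityMeasure P]
        (t : Sym2 V → Ω → ℝ), (∀ e, Measurable (t e)) → (∀ e, P.map (t e) = G) → iIndepFun t P →
        ∀ α : ℝ, |α| ≤ 1 →
        ∀ᵐ ω ∂P, ∀ v : ℕ → V, IsRay (fun e => t e ω) v → ∀ c : ℝ,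
          (∃ᶠ i in atTop, κ * √(Real.log (|((v i).1 : ℝ)| + 2)) <
            |((v i).2 : ℝ) - (α * (v i).1 + c)|) ∧
          (∃ᶠ i in atTop, κ * √(Real.log (|((v i).2 : ℝ)| + 2)) <
            |((v i).1 : ℝ) - (α * (v i).2 + c)|) := by
  obtain ⟨a, b, ha, hab, hGa, hGb⟩ := two_points G hG0 hGa
  have hb : 0 ≤ b := by linarith
  obtain ⟨K0, hK0⟩ := exists_nat_gt ((4 * a + 2 * b) / (b - a))
  rw [div_lt_iff₀ (by linarith)] at hK0
  have hK1 : 1 ≤ K0 := by
    by_contra hcon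
    have : K0 = 0 := by omega
    subst this
    simp only [Nat.cast_zero, zero_mul] at hK0
    linarith
  obtain ⟨L, hLdef⟩ : ∃ L : ℕ → ℕ, ∀ h, L h = K0 * (h + 1) := ⟨fun h => K0 * (h + 1), fun _ => rfl⟩
  have hL1 : ∀ h, 1 ≤ L h := by
    intro h
    rw [hLdef]
    exact Nat.mul_pos hK1 (Nat.succ_pos h)
  have hL : ∀ h : ℕ, a * (L h + 4 * h + 2) < b * (L h - 2 * h) := by
    intro h
    have h1 : ((L h : ℕ) : ℝ) = K0 * (h + 1) := by rw [hLdef]; push_cast; ring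
    rw [h1]
    have h2 : (4 * a + 2 * b) * ((h : ℝ) + 1) < K0 * (b - a) * ((h : ℝ) + 1) :=
      mul_lt_mul_of_pos_right hK0 (by positivity)
    nlinarith
  obtain ⟨M, hM, hsum⟩ := sum_log (4 * K0 + 4) (fun h => Main2.num (L h) h) (by
    intro h
    show Main2.num (L h) h ≤ (4 * K0 + 4) * (h + 1) ^ 2
    unfold Main2.num
    rw [hLdef]
    nlinarith [Nat.zero_le (K0 * h), Nat.zero_le K0, Nat.zero_le h, Nat.zero_le (h * h)])
    (G (Set.Iic a) * G (Set.Ici b)) (mul_ne_zero hGa hGb)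
  obtain ⟨X, F, hkX, hX, hfX, hF, κ, hκ, C0, hC0⟩ := grow (4 * K0 + 4) M hM L
    (fun k => Nat.sqrt (Nat.log 2 (k + 2) / M)) (by
      intro h
      rw [hLdef]
      exact Nat.mul_le_mul_right _ (by omega)) (fun _ => rfl)
  refine ⟨κ, hκ, fun Ω _ P _ t hm hl hi α hα => ?_⟩
  filter_upwards [core hG0 ha hab hL1 hL hkX hX hfX hF hsum Ω P t hm hl hi α hα] with ω hω v hv c
  obtain ⟨C, hC⟩ := exists_nat_ge |c|
  obtain ⟨h1, h2⟩ := hω v hv (C0 + C)
  have habs : ∀ n : ℤ, |(n : ℝ)| = (n.natAbs : ℝ) := by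
    intro n
    rw [Nat.cast_natAbs]
    push_cast
    rfl
  refine ⟨h1.mono fun i hi => ?_, h2.mono fun i hi => ?_⟩
  · have h3 : |((v i).2 : ℝ) - α * (v i).1| ≤ |((v i).2 : ℝ) - (α * (v i).1 + c)| + |c| := by
      have := abs_add_le (((v i).2 : ℝ) - (α * (v i).1 + c)) c
      have h4 : ((v i).2 : ℝ) - (α * (v i).1 + c) + c = (v i).2 - α * (v i).1 := by ring
      rwa [h4] at this
    have h5 := hC0 (v i).1.natAbs
    rw [habs (v i).1]
    push_cast at hi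
    push_cast at h5
    linarith
  · have h3 : |((v i).1 : ℝ) - α * (v i).2| ≤ |((v i).1 : ℝ) - (α * (v i).2 + c)| + |c| := by
      have := abs_add_le (((v i).1 : ℝ) - (α * (v i).2 + c)) c
      have h4 : ((v i).1 : ℝ) - (α * (v i).2 + c) + c = (v i).1 - α * (v i).2 := by ring
      rwa [h4] at this
    have h5 := hC0 (v i).2.natAbs
    rw [habs (v i).2]
    push_cast at hi
    push_cast at h5
    linarith

end Vale.Agent.P158
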