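import Mathlib

/-!
# P158, row [SUMLOG]: a divergent series
-/

namespace Vale.Agent.P158

open Finset Filter

namespace SumLog

theorem harm : ∑' k : ℕ, ((k : ENNReal) + 2)⁻¹ = ⊤ := by
  have h1 : ∀ k : ℕ, ((k : ENNReal) + 2)⁻¹ = (((((k : NNReal) + 2)⁻¹ : NNReal)) : ENNReal) := by
    intro k
    rw [ENNReal.coe_inv (by positivity)]
    push_cast
    rfl
  simp_rw [h1]
  rw [ENNReal.tsum_coe_eq_top_iff_not_summable_coe]
  intro h
  have h2 := (summable_nat_add_iff (f := fun n : ℕ => (1 : ℝ) / (n : ℝ)) 2).mp (by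
    refine h.congr ?_
    intro k
    push_cast
    rw [one_div])
  exact Real.not_summable_one_div_natCast h2

end SumLog

/-- [SUMLOG] SumLog.lean -/
theorem sum_log (K : ℕ) (N : ℕ → ℕ) (hN : ∀ h, N h ≤ K * (h + 1) ^ 2) (q : ENNReal)
    (hq : q ≠ 0) :
    ∃ M : ℕ, 1 ≤ M ∧ ∑' k : ℕ, q ^ N (Nat.sqrt (Nat.log 2 (k + 2) / M)) = ⊤ := by
  obtain ⟨m, hm⟩ := ENNReal.exists_inv_two_pow_lt hq
  refine ⟨2 * m * K + 1, by omega, ?_⟩
  have hterm : ∀ k : ℕ, (2⁻¹ : ENNReal) ^ (2 * m * K) * ((k : ENNReal) + 2)⁻¹ ≤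
      q ^ N (Nat.sqrt (Nat.log 2 (k + 2) / (2 * m * K + 1))) := by
    intro k
    obtain ⟨L, hL⟩ : ∃ L, L = Nat.log 2 (k + 2) := ⟨_, rfl⟩
    obtain ⟨H, hHd⟩ : ∃ H, H = Nat.sqrt (Nat.log 2 (k + 2) / (2 * m * K + 1)) := ⟨_, rfl⟩
    have hH : H * H ≤ L / (2 * m * K + 1) := by
      rw [hHd, hL]
      exact Nat.sqrt_le _
    have hML : (L / (2 * m * K + 1)) * (2 * m * K + 1) ≤ L := Nat.div_mul_le_self _ _
    have hsq : (H + 1) ^ 2 ≤ 2 * (H * H) + 2 := by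
      rcases H with _ | t
      · norm_num
      · nlinarith
    have hexp : m * N H ≤ 2 * m * K + L := by
      calc m * N H ≤ m * (K * (H + 1) ^ 2) := Nat.mul_le_mul_left _ (hN H)
        _ ≤ m * (K * (2 * (H * H) + 2)) := by gcongr
        _ ≤ m * (K * (2 * (L / (2 * m * K + 1)) + 2)) := by gcongr
        _ = 2 * m * K + (2 * m * K) * (L / (2 * m * K + 1)) := by ring
        _ ≤ 2 * m * K + (L / (2 * m * K + 1)) * (2 * m * K + 1) := by
            have : (2 * m * K) * (L / (2 * m * K + 1)) ≤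
                (L / (2 * m * K + 1)) * (2 * m * K + 1) := by
              rw [mul_comm (2 * m * K)]
              exact Nat.mul_le_mul_left _ (Nat.le_succ _)
            omega
        _ ≤ 2 * m * K + L := by omega
    have h2L : 2 ^ L ≤ k + 2 := by
      rw [hL]
      exact Nat.pow_log_le_self 2 (by omega)
    have h2L' : ((k : ENNReal) + 2)⁻¹ ≤ (2⁻¹ : ENNReal) ^ L := by
      rw [← ENNReal.inv_pow, ENNReal.inv_le_inv]
      have : ((2 ^ L : ℕ) : ENNReal) ≤ ((k + 2 : ℕ) : ENNReal) := by exact_mod_cast h2L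
      push_cast at this
      exact this
    rw [← hHd]
    calc (2⁻¹ : ENNReal) ^ (2 * m * K) * ((k : ENNReal) + 2)⁻¹
        ≤ (2⁻¹ : ENNReal) ^ (2 * m * K) * (2⁻¹ : ENNReal) ^ L := by gcongr
      _ = (2⁻¹ : ENNReal) ^ (2 * m * K + L) := (pow_add _ _ _).symm
      _ ≤ (2⁻¹ : ENNReal) ^ (m * N H) := by
          apply pow_le_pow_right_of_le_one' _ hexp
          exact ENNReal.inv_le_one.mpr (by norm_num)
      _ = ((2⁻¹ : ENNReal) ^ m) ^ (N H) := pow_mul _ _ _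
      _ ≤ q ^ N H := pow_le_pow_left' hm.le _
  have h1 : ∑' k : ℕ, (2⁻¹ : ENNReal) ^ (2 * m * K) * ((k : ENNReal) + 2)⁻¹ = ⊤ := by
    rw [ENNReal.tsum_mul_left, SumLog.harm]
    apply ENNReal.mul_top
    exact pow_ne_zero _ (by simp)
  exact top_le_iff.mp (h1 ▸ ENNReal.tsum_le_tsum hterm)

end Vale.Agent.P158
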