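import Vale.Agent.P158.U2

/-!
P158, row U1p: non-explicit scales.
-/

namespace Vale.Agent.P158

open scoped ENNReal

/-- [U1'] U1p.lean: non-explicit scales. -/
theorem exists_N (R L k : ℕ) {c : ℝ≥0∞} (hc : c ≠ 0) (hc1 : c ≤ 1) :
    ∃ N : ℕ, 1 ≤ N ∧ ((R + N * (L + 1) + 1 : ℕ) : ℝ≥0∞) * ((2 * (R + N * (L + 1)) + 1 : ℕ) : ℝ≥0∞) *
      (1 - c) ^ N ≤ (1 / 2) ^ k := by
  obtain ⟨N, h1, h2⟩ := choose_num c hc R L k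
  refine ⟨N, h1, ?_⟩
  rw [one_div, ← Nat.cast_mul]
  exact h2

end Vale.Agent.P158
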