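import Mathlib

/-! P158, version 4, row U2: the number of blocks of a window. -/

namespace Vale.Agent.P158

open Filter

theorem U2.real {r : ℝ} (h0 : 0 ≤ r) (h1 : r < 1) (R L k : ℕ) :
    ∃ N : ℕ, 1 ≤ N ∧
      (((R + N * (L + 1) + 1) * (2 * (R + N * (L + 1)) + 1) : ℕ) : ℝ) * r ^ N ≤ (2⁻¹ : ℝ) ^ k := by
  have h := tendsto_pow_const_mul_const_pow_of_abs_lt_one 2
    (show |r| < 1 by rw [abs_of_nonneg h0]; exact h1)
  have h2 := h.const_mul (2 * ((R : ℝ) + L + 2) ^ 2)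
  rw [mul_zero] at h2
  have h3 : ∀ᶠ n : ℕ in atTop, 2 * ((R : ℝ) + L + 2) ^ 2 * ((n : ℝ) ^ 2 * r ^ n) < (2⁻¹ : ℝ) ^ k :=
    h2.eventually_lt_const (by positivity)
  obtain ⟨N, hN, hN1⟩ := (h3.and (eventually_ge_atTop 1)).exists
  refine ⟨N, hN1, le_trans ?_ hN.le⟩
  rw [← mul_assoc]
  refine mul_le_mul_of_nonneg_right ?_ (pow_nonneg h0 _)
  have hN1' : (1 : ℝ) ≤ N := by exact_mod_cast hN1
  have hR : (0 : ℝ) ≤ R := Nat.cast_nonneg _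
  have hL : (0 : ℝ) ≤ L := Nat.cast_nonneg _
  have e1 : (R : ℝ) + N * (L + 1) + 1 ≤ (R + L + 2) * N := by nlinarith [mul_nonneg hR (by linarith : (0 : ℝ) ≤ N - 1)]
  have e2 : 2 * ((R : ℝ) + N * (L + 1)) + 1 ≤ 2 * ((R + L + 2) * N) := by linarith
  have e3 : (0 : ℝ) ≤ 2 * ((R : ℝ) + N * (L + 1)) + 1 := by positivity
  have e4 : (0 : ℝ) ≤ (R + L + 2) * (N : ℝ) := by positivity
  push_cast
  calc ((R : ℝ) + N * (L + 1) + 1) * (2 * (R + N * (L + 1)) + 1)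
      ≤ ((R + L + 2) * N) * (2 * ((R + L + 2) * N)) := mul_le_mul e1 e2 e3 e4
    _ = 2 * ((R : ℝ) + L + 2) ^ 2 * (N : ℝ) ^ 2 := by ring

/-- [U2] U2.lean -/
theorem choose_num (p : ENNReal) (hp : p ≠ 0) (R L k : ℕ) :
    ∃ N : ℕ, 1 ≤ N ∧
      (((R + N * (L + 1) + 1) * (2 * (R + N * (L + 1)) + 1) : ℕ) : ENNReal) * (1 - p) ^ N ≤
        2⁻¹ ^ k := by
  have h1 : 1 - p < 1 := ENNReal.sub_lt_self ENNReal.one_ne_top one_ne_zero hp
  have hfin : 1 - p ≠ ⊤ := ne_top_of_lt h1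
  have h2 : (1 - p).toReal < 1 := by
    have := (ENNReal.toReal_lt_toReal hfin ENNReal.one_ne_top).2 h1
    simpa using this
  obtain ⟨N, hN1, hN⟩ := U2.real ENNReal.toReal_nonneg h2 R L k
  refine ⟨N, hN1, ?_⟩
  have h3 := ENNReal.ofReal_le_ofReal hN
  rw [ENNReal.ofReal_mul (Nat.cast_nonneg _), ENNReal.ofReal_natCast,
    ENNReal.ofReal_pow ENNReal.toReal_nonneg, ENNReal.ofReal_toReal hfin,
    ENNReal.ofReal_pow (by norm_num), ENNReal.ofReal_inv_of_pos (by norm_num),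
    ENNReal.ofReal_ofNat] at h3
  exact h3

end Vale.Agent.P158
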