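import Vale.Agent.P158.Main2

/-!
# P158: the symmetry step for all lines simultaneously
-/

namespace Vale.Agent.P158

open Finset MeasureTheory ProbabilityTheory Filter

namespace U8

theorem key (p q : ℤˣ) {α : ℝ} (hq : α = (q : ℤ) * |α|) (β : ℝ) (x y : ℤ) :
    |((((p * q : ℤˣ) : ℤ) * y : ℤ) : ℝ) -
      (|α| * ((((p : ℤ) * x : ℤ)) : ℝ) + (((p * q : ℤˣ) : ℤ) : ℝ) * β)| =
      |(y : ℝ) - (α * x + β)| := by
  have hqq : ((q : ℤ) : ℝ) * ((q : ℤ) : ℝ) = 1 := by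
    rcases Int.units_eq_one_or q with rfl | rfl <;> simp
  have h8 : ((q : ℤ) : ℝ) * α = |α| := by
    calc ((q : ℤ) : ℝ) * α = ((q : ℤ) : ℝ) * (((q : ℤ) : ℝ) * |α|) := by rw [← hq]
      _ = |α| := by rw [← mul_assoc, hqq, one_mul]
  have h7 : ((((p * q : ℤˣ) : ℤ) * y : ℤ) : ℝ) -
      (|α| * ((((p : ℤ) * x : ℤ)) : ℝ) + (((p * q : ℤˣ) : ℤ) : ℝ) * β) =
      ((p : ℤ) : ℝ) * ((q : ℤ) : ℝ) * ((y : ℝ) - (α * x + β)) := by
    rw [← h8]
    push_cast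
    ring
  rw [h7, abs_mul, abs_mul]
  have h9 : ∀ r : ℤˣ, |((r : ℤ) : ℝ)| = 1 := by
    intro r
    rcases Int.units_eq_one_or r with rfl | rfl <;> simp
  rw [h9, h9, one_mul, one_mul]

/-- a ray close to a line of slope at most one leaves to the right or to the left -/
theorem dich {u : ℕ → V} (hinj : Function.Injective u) (hadj : ∀ i, Adj (u i) (u (i + 1)))
    {w : ℕ → ℝ} {α β : ℝ} (hα : |α| ≤ 1)
    (h : ∀ᶠ i in atTop, |((u i).2 : ℝ) - (α * (u i).1 + β)| ≤ w (u i).1.natAbs) :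
    Tendsto (fun i => (u i).1) atTop atTop ∨ Tendsto (fun i => (u i).1) atTop atBot := by
  obtain ⟨i0, hi0⟩ := h.exists_forall_of_atTop
  refine exit (fun n => ⌈w n⌉₊ + ⌈|β|⌉₊ + n) hinj hadj i0 (fun i hi => ?_)
  have h3 := hi0 i hi
  have h4 : |((u i).2 : ℝ)| ≤ |((u i).2 : ℝ) - (α * (u i).1 + β)| + |α * (u i).1 + β| := by
    have := abs_add_le (((u i).2 : ℝ) - (α * (u i).1 + β)) (α * (u i).1 + β)
    rwa [sub_add_cancel] at this
  have h5 : |α * ((u i).1 : ℝ) + β| ≤ |((u i).1 : ℝ)| + |β| := by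
    refine (abs_add_le _ _).trans ?_
    have : |α * ((u i).1 : ℝ)| ≤ |((u i).1 : ℝ)| := by
      rw [abs_mul]
      exact mul_le_of_le_one_left (abs_nonneg _) hα
    linarith
  have h6 := Nat.le_ceil (w (u i).1.natAbs)
  have h7 := Nat.le_ceil |β|
  have h8 : ((u i).2.natAbs : ℝ) ≤
      ((⌈w (u i).1.natAbs⌉₊ + ⌈|β|⌉₊ + (u i).1.natAbs : ℕ) : ℝ) := by
    rw [Nat.cast_natAbs]
    push_cast
    rw [Nat.cast_natAbs]
    push_cast
    linarith
  exact_mod_cast h8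

end U8

/-- The symmetries of the square: from rays going to the right and slopes between `0` and `1` to
all rays and all lines. -/
theorem sym4 {Ω : Type*} [MeasurableSpace Ω] {P : Measure Ω} {t : Sym2 V → Ω → ℝ}
    {ι : Type*} {w : ι → ℕ → ℝ}
    (h : ∀ (ρ : V ≃ V), (∀ u v, Adj (ρ u) (ρ v) ↔ Adj u v) → ∀ᵐ ω ∂P, ∀ v : ℕ → V,
      IsRay (fun e => t e ω) v → Tendsto (fun i => (ρ (v i)).1) atTop atTop →
      ∀ α β : ℝ, 0 ≤ α → α ≤ 1 → ∀ c : ι, ∃ᶠ i in atTop,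
        w c (ρ (v i)).1.natAbs < |((ρ (v i)).2 : ℝ) - (α * (ρ (v i)).1 + β)|) :
    ∀ᵐ ω ∂P, ∀ v : ℕ → V, IsRay (fun e => t e ω) v → ∀ α β : ℝ, |α| ≤ 1 → ∀ c : ι,
      (∃ᶠ i in atTop, w c (v i).1.natAbs < |((v i).2 : ℝ) - (α * (v i).1 + β)|) ∧
      (∃ᶠ i in atTop, w c (v i).2.natAbs < |((v i).1 : ℝ) - (α * (v i).2 + β)|) := by
  have hev : ∀ (s : V ≃ V), (∀ u v, Adj (s u) (s v) ↔ Adj u v) → ∀ᵐ ω ∂P, ∀ v : ℕ → V,
      IsRay (fun e => t e ω) v → ∀ α β : ℝ, |α| ≤ 1 → ∀ c : ι,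
      ∃ᶠ i in atTop, w c (s (v i)).1.natAbs < |((s (v i)).2 : ℝ) - (α * (s (v i)).1 + β)| := by
    intro s hs
    have h1 : ∀ᵐ ω ∂P, ∀ p q : ℤˣ, ∀ v : ℕ → V,
        IsRay (fun e => t e ω) v →
        Tendsto (fun i => ((s.trans (Main2.sg p (p * q))) (v i)).1) atTop atTop →
        ∀ α β : ℝ, 0 ≤ α → α ≤ 1 → ∀ c : ι, ∃ᶠ i in atTop,
          w c ((s.trans (Main2.sg p (p * q))) (v i)).1.natAbs <
            |(((s.trans (Main2.sg p (p * q))) (v i)).2 : ℝ) -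
              (α * ((s.trans (Main2.sg p (p * q))) (v i)).1 + β)| := by
      rw [ae_all_iff]
      intro p
      rw [ae_all_iff]
      intro q
      exact h _ (fun u v => (Main2.adj_sg _ _ _ _).trans (hs u v))
    filter_upwards [h1] with ω hω v hv α β hα c
    by_contra hcon
    rw [not_frequently] at hcon
    have hcon' : ∀ᶠ i in atTop,
        |((s (v i)).2 : ℝ) - (α * (s (v i)).1 + β)| ≤ w c (s (v i)).1.natAbs :=
      hcon.mono fun i hi => not_lt.1 hi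
    obtain ⟨q, hq⟩ : ∃ q : ℤˣ, α = (q : ℤ) * |α| := by
      rcases le_or_gt 0 α with h | h
      · exact ⟨1, by simp [abs_of_nonneg h]⟩
      · exact ⟨-1, by simp [abs_of_neg h]⟩
    have main : ∀ p : ℤˣ, Tendsto (fun i => ((p : ℤ) * (s (v i)).1)) atTop atTop → False := by
      intro p hp
      have h2 := hω p q v hv hp |α| ((((p * q : ℤˣ) : ℤ) : ℝ) * β) (abs_nonneg _) hα c
      obtain ⟨i, hi1, hi2⟩ := (h2.and_eventually hcon').exists
      change w c ((p : ℤ) * (s (v i)).1).natAbs <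
        |((((p * q : ℤˣ) : ℤ) * (s (v i)).2 : ℤ) : ℝ) -
          (|α| * ((((p : ℤ) * (s (v i)).1 : ℤ)) : ℝ) + (((p * q : ℤˣ) : ℤ) : ℝ) * β)| at hi1
      rw [U8.key p q hq] at hi1
      have h3 : ((p : ℤ) * (s (v i)).1).natAbs = (s (v i)).1.natAbs := by
        rcases Int.units_eq_one_or p with rfl | rfl <;> simp
      rw [h3] at hi1
      exact absurd hi1 (not_lt.2 hi2)
    have hadj : ∀ i, Adj (s (v i)) (s (v (i + 1))) := fun i => (hs _ _).2 (hv.2.1 i)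
    rcases U8.dich (s.injective.comp hv.1) hadj hα hcon' with h2 | h2
    · exact main 1 (h2.congr fun i => by simp)
    · exact main (-1) ((tendsto_neg_atBot_atTop.comp h2).congr fun i => by simp)
  filter_upwards [hev (Equiv.refl V) (fun u v => Iff.rfl), hev Main.sw Main.adj_sw]
    with ω h1 h2 v hv α β hα c
  exact ⟨h1 v hv α β hα c, h2 v hv α β hα c⟩

end Vale.Agent.P158
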