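import Mathlib

/-!
# P158: explicit scales for the union bound over all lines
-/

namespace Vale.Agent.P158

open scoped ENNReal

namespace Scales3

/-- the real estimate of one factor -/
lemma factor_le {k E N D B A : ℕ} (hB : 1 ≤ B) (hE : 2 * E ≤ k + A) (hD : D ≤ B * (k + 1))
    (hD0 : 0 < D) (hN : N = 2 ^ k / D) :
    (1 - (1 / 2 : ℝ) ^ E) ^ N ≤
      Real.exp 1 * (Nat.factorial 8) * 2 ^ (4 * A) * B ^ 8 * ((k + 1 : ℕ) : ℝ) ^ 8 / 16 ^ k := by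
  set x : ℝ := (1 / 2) ^ E with hx
  have hx0 : 0 < x := by positivity
  have hx1 : x ≤ 1 := pow_le_one₀ (by norm_num) (by norm_num)
  set G : ℝ := B * ((k + 1 : ℕ) : ℝ) with hG
  have hG0 : 0 < G := by
    have : (0 : ℝ) < B := by exact_mod_cast hB
    positivity
  set z : ℝ := 2 ^ k / (2 ^ E * G) with hz
  have hz0 : 0 < z := by positivity
  have h1 : (2 : ℝ) ^ k / G ≤ N + 1 := by
    have h2 : 2 ^ k < D * (2 ^ k / D + 1) := Nat.lt_mul_div_succ _ hD0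
    rw [← hN] at h2
    have h3 : (2 : ℝ) ^ k ≤ D * (N + 1) := by exact_mod_cast h2.le
    have h4 : (D : ℝ) ≤ G := by
      rw [hG]
      exact_mod_cast hD
    rw [div_le_iff₀ hG0]
    calc (2 : ℝ) ^ k ≤ D * (N + 1) := h3
      _ ≤ G * (N + 1) := by gcongr
      _ = (N + 1) * G := mul_comm _ _
  have h5 : z - 1 ≤ x * N := by
    have h6 : x * (2 ^ k / G) = z := by
      rw [hx, hz, one_div, inv_pow]
      field_simp
    have h7 : x * (2 ^ k / G) ≤ x * (N + 1) := by gcongr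
    nlinarith
  have h8 : (1 - x) ^ N ≤ Real.exp (1 - z) := by
    calc (1 - x) ^ N ≤ Real.exp (-x) ^ N := by
          exact pow_le_pow_left₀ (by linarith) (Real.one_sub_le_exp_neg x) N
      _ = Real.exp (-(x * N)) := by
          rw [← Real.exp_nat_mul]
          ring_nf
      _ ≤ Real.exp (1 - z) := by
          apply Real.exp_le_exp.2
          linarith
  have h9 : Real.exp (1 - z) ≤ Real.exp 1 * (Nat.factorial 8 / z ^ 8) := by
    rw [Real.exp_sub, div_eq_mul_inv]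
    gcongr
    have h10 := Real.pow_div_factorial_le_exp z hz0.le 8
    rw [inv_le_comm₀ (Real.exp_pos z) (by positivity)]
    rwa [inv_div]
  have h11 : (Nat.factorial 8 : ℝ) / z ^ 8 ≤
      (Nat.factorial 8) * (2 ^ (4 * A) * B ^ 8 * ((k + 1 : ℕ) : ℝ) ^ 8 / 16 ^ k) := by
    rw [div_eq_mul_inv]
    gcongr
    rw [hz, div_pow, inv_div, mul_pow, hG, mul_pow, ← pow_mul, ← pow_mul]
    have h12 : (2 : ℝ) ^ (E * 8) ≤ 2 ^ (4 * k + 4 * A) :=
      pow_le_pow_right₀ (by norm_num) (by omega)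
    rw [div_le_div_iff₀ (by positivity) (by positivity)]
    have h13 : (2 : ℝ) ^ (k * 8) = 2 ^ (4 * k) * 16 ^ k := by
      rw [show (16 : ℝ) = 2 ^ 4 by norm_num, ← pow_mul, ← pow_add]
      congr 1
      ring
    rw [h13]
    calc (2 : ℝ) ^ (E * 8) * ((B : ℝ) ^ 8 * ((k + 1 : ℕ) : ℝ) ^ 8) * 16 ^ k
        ≤ 2 ^ (4 * k + 4 * A) * ((B : ℝ) ^ 8 * ((k + 1 : ℕ) : ℝ) ^ 8) * 16 ^ k := by gcongr
      _ = 2 ^ (4 * A) * B ^ 8 * ((k + 1 : ℕ) : ℝ) ^ 8 * (2 ^ (4 * k) * 16 ^ k) := by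
          rw [pow_add]
          ring
  calc (1 - x) ^ N ≤ Real.exp (1 - z) := h8
    _ ≤ Real.exp 1 * (Nat.factorial 8 / z ^ 8) := h9
    _ ≤ Real.exp 1 * ((Nat.factorial 8) *
        (2 ^ (4 * A) * B ^ 8 * ((k + 1 : ℕ) : ℝ) ^ 8 / 16 ^ k)) := by gcongr
    _ = _ := by ring

end Scales3

open Scales3 in
/-- explicit scales -/
theorem sum_scales (K : ℕ) {q : ℝ≥0∞} (hq : q ≠ 0) (hq1 : q ≤ 1) :
    ∃ M : ℕ, 1 ≤ M ∧ ∑' k : ℕ, ((2 ^ (k + 1) + 1 : ℕ) : ℝ≥0∞) * ((2 * 2 ^ (k + 1) + 1 : ℕ) : ℝ≥0∞) *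
      (1 - q ^ (K * (Nat.sqrt (k / M) + 1) ^ 2)) ^ (2 ^ k / (K * (Nat.sqrt (k / M) + 1) + 1)) ≠ ⊤ := by
  obtain ⟨m, hm⟩ : ∃ m : ℕ, ENNReal.ofReal ((1 / 2) ^ m) ≤ q := by
    have hq' : 0 < q.toReal := ENNReal.toReal_pos hq (ne_top_of_le_ne_top ENNReal.one_ne_top hq1)
    obtain ⟨m, hm⟩ := exists_pow_lt_of_lt_one hq' (by norm_num : (1 / 2 : ℝ) < 1)
    exact ⟨m, (ENNReal.ofReal_le_iff_le_toReal
      (ne_top_of_le_ne_top ENNReal.one_ne_top hq1)).2 hm.le⟩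
  refine ⟨4 * m * K + 1, by omega, ?_⟩
  set M := 4 * m * K + 1 with hM
  set A := 4 * m * K with hA
  set B := K + 1 with hB
  set C : ℝ := Real.exp 1 * (Nat.factorial 8) * 2 ^ (4 * A) * B ^ 8 with hC
  have key : ∀ k : ℕ, ((2 ^ (k + 1) + 1 : ℕ) : ℝ≥0∞) * ((2 * 2 ^ (k + 1) + 1 : ℕ) : ℝ≥0∞) *
      (1 - q ^ (K * (Nat.sqrt (k / M) + 1) ^ 2)) ^ (2 ^ k / (K * (Nat.sqrt (k / M) + 1) + 1)) ≤
      ENNReal.ofReal (15 * C * (((k + 1 : ℕ) : ℝ) ^ 8 * (1 / 4) ^ k)) := by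
    intro k
    set H := Nat.sqrt (k / M) with hH
    have hH2 : H * H ≤ k / M := Nat.sqrt_le _
    have hH3 : M * (H * H) ≤ k := (Nat.mul_le_mul_left M hH2).trans (Nat.mul_div_le k M)
    have hHk : H ≤ k := (Nat.sqrt_le_self _).trans (Nat.div_le_self _ _)
    have h1 : 2 * (m * (K * (H + 1) ^ 2)) ≤ k + A := by
      have h2 : (H + 1) ^ 2 ≤ 2 * (H * H) + 2 := by
        zify
        nlinarith [sq_nonneg ((H : ℤ) - 1)]
      calc 2 * (m * (K * (H + 1) ^ 2)) ≤ 2 * (m * (K * (2 * (H * H) + 2))) := by gcongr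
        _ = 4 * m * K * (H * H) + 4 * m * K := by ring
        _ ≤ M * (H * H) + A := by
            rw [hM, hA]
            nlinarith
        _ ≤ k + A := by omega
    have h2 := factor_le (k := k) (E := m * (K * (H + 1) ^ 2)) (N := 2 ^ k / (K * (H + 1) + 1))
      (D := K * (H + 1) + 1) (B := B) (A := A) (by omega) h1
      (by
        rw [hB]
        nlinarith) (by omega) rfl
    have h3 : ENNReal.ofReal ((1 / 2) ^ (m * (K * (H + 1) ^ 2))) ≤ q ^ (K * (H + 1) ^ 2) := by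
      rw [pow_mul, ENNReal.ofReal_pow (by positivity)]
      gcongr
    have hx1 : (1 / 2 : ℝ) ^ (m * (K * (H + 1) ^ 2)) ≤ 1 :=
      pow_le_one₀ (by norm_num) (by norm_num)
    have h4 : (1 - q ^ (K * (H + 1) ^ 2)) ^ (2 ^ k / (K * (H + 1) + 1)) ≤
        ENNReal.ofReal ((1 - (1 / 2 : ℝ) ^ (m * (K * (H + 1) ^ 2))) ^
          (2 ^ k / (K * (H + 1) + 1))) := by
      rw [ENNReal.ofReal_pow (by linarith), ENNReal.ofReal_sub _ (by positivity),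
        ENNReal.ofReal_one]
      gcongr
    have h5 : ((2 ^ (k + 1) + 1 : ℕ) : ℝ) * ((2 * 2 ^ (k + 1) + 1 : ℕ) : ℝ) ≤ 15 * 4 ^ k := by
      have h6 : (1 : ℝ) ≤ 2 ^ k := one_le_pow₀ (by norm_num)
      have h7 : (4 : ℝ) ^ k = 2 ^ k * 2 ^ k := by
        rw [← mul_pow]
        norm_num
      push_cast
      rw [h7, pow_succ]
      nlinarith
    calc ((2 ^ (k + 1) + 1 : ℕ) : ℝ≥0∞) * ((2 * 2 ^ (k + 1) + 1 : ℕ) : ℝ≥0∞) *
          (1 - q ^ (K * (H + 1) ^ 2)) ^ (2 ^ k / (K * (H + 1) + 1))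
        ≤ ((2 ^ (k + 1) + 1 : ℕ) : ℝ≥0∞) * ((2 * 2 ^ (k + 1) + 1 : ℕ) : ℝ≥0∞) *
          ENNReal.ofReal (C * ((k + 1 : ℕ) : ℝ) ^ 8 / 16 ^ k) := by
          gcongr
          exact h4.trans (ENNReal.ofReal_le_ofReal h2)
      _ = ENNReal.ofReal (((2 ^ (k + 1) + 1 : ℕ) : ℝ) * ((2 * 2 ^ (k + 1) + 1 : ℕ) : ℝ) *
          (C * ((k + 1 : ℕ) : ℝ) ^ 8 / 16 ^ k)) := by
          rw [ENNReal.ofReal_mul (by positivity), ENNReal.ofReal_mul (by positivity),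
            ENNReal.ofReal_natCast, ENNReal.ofReal_natCast]
      _ ≤ ENNReal.ofReal (15 * C * (((k + 1 : ℕ) : ℝ) ^ 8 * (1 / 4) ^ k)) := by
          apply ENNReal.ofReal_le_ofReal
          calc ((2 ^ (k + 1) + 1 : ℕ) : ℝ) * ((2 * 2 ^ (k + 1) + 1 : ℕ) : ℝ) *
              (C * ((k + 1 : ℕ) : ℝ) ^ 8 / 16 ^ k)
              ≤ (15 * 4 ^ k) * (C * ((k + 1 : ℕ) : ℝ) ^ 8 / 16 ^ k) := by gcongr
            _ = 15 * C * (((k + 1 : ℕ) : ℝ) ^ 8 * (4 ^ k / 16 ^ k)) := by ring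
            _ = _ := by
                rw [← div_pow]
                norm_num
  have hsum : Summable fun k : ℕ => 15 * C * (((k + 1 : ℕ) : ℝ) ^ 8 * (1 / 4) ^ k) := by
    apply Summable.mul_left
    have h1 := (summable_pow_mul_geometric_of_norm_lt_one 8
      (r := (1 / 4 : ℝ)) (by norm_num)).comp_injective (add_left_injective 1)
    have h2 := h1.mul_left 4
    refine h2.congr fun k => ?_
    simp only [Function.comp_apply]
    rw [pow_succ]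
    ring
  refine ne_top_of_le_ne_top ?_ (ENNReal.tsum_le_tsum key)
  exact hsum.tsum_ofReal_ne_top

end Vale.Agent.P158
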