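import Vale.Agent.P158.Defs3
import Vale.Agent.P158.U1
import Vale.Agent.P158.Card2
import Vale.Agent.P158.Disj2

/-! P158, row W2: the probability that none of the `N` blocks is good. -/

namespace Vale.Agent.P158

open Finset MeasureTheory ProbabilityTheory Filter
open scoped ENNReal

/-- [W2] no_good -/
theorem no_good {Ω : Type*} [MeasurableSpace Ω] {P : Measure Ω} [IsProbabilityMeasure P]
    {t : Sym2 V → Ω → ℝ} (hmeas : ∀ e, Measurable (t e)) (hind : iIndepFun t P) {G : Measure ℝ}
    [IsProbabilityMeasure G] (hG : ∀ e, P.map (t e) = G) {a b : ℝ} {g : ℤ → ℤ} (hs : Stair g)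
    (R : ℤ) (L h N : ℕ) (hL : 1 ≤ L) :
    P {ω | ∀ m < N, ¬ Good2 g (fun e => t e ω) a b (R + m * (L + 1)) L h} ≤
      (1 - (G (Set.Iic a) * G (Set.Ici b)) ^ cnt L h) ^ N := by
  classical
  have hlt : ∀ k l : ℕ, k < l → R + k * ((L : ℤ) + 1) + L < R + l * ((L : ℤ) + 1) := by
    intro k l hkl
    have h1 : (k : ℤ) + 1 ≤ l := by exact_mod_cast hkl
    have h2 : (0 : ℤ) ≤ L := by positivity
    nlinarith
  let B : ℕ → Finset (Sym2 V) := fun k =>
    High2 g (R + k * ((L : ℤ) + 1)) L h ∪ Low2 g (R + k * ((L : ℤ) + 1)) L h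
  have hdis : ∀ k l, k ≠ l → Disjoint (B k) (B l) := by
    intro k l hkl
    rcases Nat.lt_or_gt_of_ne hkl with h | h
    · exact disj2 g (hlt k l h)
    · exact (disj2 g (hlt l k h)).symm
  let A : Sym2 V → Set ℝ := fun e =>
    if ∃ l : ℕ, e ∈ High2 g (R + l * ((L : ℤ) + 1)) L h then Set.Ici b else Set.Iic a
  have hA : ∀ e, MeasurableSet (A e) := by
    intro e
    simp only [A]
    split_ifs
    · exact measurableSet_Ici
    · exact measurableSet_Iic
  have hPA : ∀ e, G (Set.Iic a) * G (Set.Ici b) ≤ P (t e ⁻¹' A e) := by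
    intro e
    rw [← Measure.map_apply (hmeas e) (hA e), hG e]
    simp only [A]
    split_ifs
    · exact mul_le_of_le_one_left' prob_le_one
    · exact mul_le_of_le_one_right' prob_le_one
  have h1 : ∀ i < N, (G (Set.Iic a) * G (Set.Ici b)) ^ cnt L h ≤
      ∏ e ∈ B i, P (t e ⁻¹' A e) := by
    intro i _
    calc (G (Set.Iic a) * G (Set.Ici b)) ^ cnt L h
        ≤ (G (Set.Iic a) * G (Set.Ici b)) ^ #(B i) :=
          pow_le_pow_right_of_le_one' (mul_le_one' prob_le_one prob_le_one) (card2 g _ L h)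
      _ ≤ ∏ e ∈ B i, P (t e ⁻¹' A e) := Finset.pow_card_le_prod _ _ _ fun e _ => hPA e
  refine (measure_mono ?_).trans (none_le hmeas hind A hA N B (fun i _ j _ hij => hdis i j hij) _ h1)
  intro ω hω m hm hall
  refine hω m hm ⟨fun e he => ?_, fun e he => ?_⟩
  · have h2 := hall e (mem_union_left _ he)
    have h3 : A e = Set.Ici b := if_pos ⟨m, he⟩
    rw [h3] at h2
    exact h2
  · have h2 := hall e (mem_union_right _ he)
    have h3 : A e = Set.Iic a := by
      refine if_neg ?_
      rintro ⟨l, hl⟩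
      by_cases hml : m = l
      · subst hml
        exact Finset.disjoint_left.1 (high_low2 hs _ L h hL) hl he
      · exact Finset.disjoint_left.1 (hdis m l hml) (mem_union_right _ he) (mem_union_left _ hl)
    rw [h3] at h2
    exact h2

end Vale.Agent.P158
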