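import Vale.Agent.P158.Defs3

/-! P158, row W5: the staircases of the families are staircases -/

namespace Vale.Agent.P158

theorem stair_fam {Q p q : ℕ} (hp : p ≤ Q) : Stair (fam Q p q) := by
  have h0 : (0 : ℝ) ≤ (p : ℝ) / Q := by positivity
  have h1 : (p : ℝ) / Q ≤ 1 := div_le_one_of_le₀ (by exact_mod_cast hp) (Nat.cast_nonneg _)
  intro x
  have e : (p : ℝ) / Q * ((x + 1 : ℤ) : ℝ) = (p : ℝ) / Q * x + (p : ℝ) / Q := by
    push_cast
    ring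
  have a1 : ⌊(p : ℝ) / Q * x⌋ ≤ ⌊(p : ℝ) / Q * ((x + 1 : ℤ) : ℝ)⌋ :=
    Int.floor_le_floor (by rw [e]; linarith)
  have a2 : ⌊(p : ℝ) / Q * ((x + 1 : ℤ) : ℝ)⌋ ≤ ⌊(p : ℝ) / Q * x⌋ + 1 := by
    rw [← Int.floor_add_one]
    exact Int.floor_le_floor (by rw [e]; linarith)
  unfold fam
  constructor
  · linarith
  · linarith

end Vale.Agent.P158
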