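import Vale.Agent.P158.W2
import Vale.Agent.P158.W5

/-! P158: all staircases of the families have good blocks (first Borel-Cantelli lemma). -/

namespace Vale.Agent.P158

open Finset MeasureTheory ProbabilityTheory Filter
open scoped ENNReal

theorem fam_ae {Ω : Type*} [MeasurableSpace Ω] {P : Measure Ω} [IsProbabilityMeasure P]
    {t : Sym2 V → Ω → ℝ} (hmeas : ∀ e, Measurable (t e)) (hind : iIndepFun t P) {G : Measure ℝ}
    [IsProbabilityMeasure G] (hG : ∀ e, P.map (t e) = G) {a b : ℝ} {h L N R : ℕ → ℕ}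
    (hL : ∀ k, 1 ≤ L k)
    (hN : ∑' k, ((R (k + 1) + 1 : ℕ) : ℝ≥0∞) * ((2 * R (k + 1) + 1 : ℕ) : ℝ≥0∞) *
      (1 - (G (Set.Iic a) * G (Set.Ici b)) ^ cnt (L k) (h k)) ^ N k ≠ ⊤) :
    ∀ᵐ ω ∂P, ∀ᶠ k in atTop, ∀ p ≤ R (k + 1), ∀ q ≤ 2 * R (k + 1), ∃ m < N k,
      Good2 (fam (R (k + 1)) p q) (fun e => t e ω) a b ((R k : ℤ) + m * (L k + 1)) (L k) (h k) := by
  have hB : ∀ k, P (⋃ p ∈ range (R (k + 1) + 1), ⋃ q ∈ range (2 * R (k + 1) + 1),
      {ω | ∀ m < N k, ¬ Good2 (fam (R (k + 1)) p q) (fun e => t e ω) a b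
        ((R k : ℤ) + m * (L k + 1)) (L k) (h k)}) ≤
      ((R (k + 1) + 1 : ℕ) : ℝ≥0∞) * ((2 * R (k + 1) + 1 : ℕ) : ℝ≥0∞) *
        (1 - (G (Set.Iic a) * G (Set.Ici b)) ^ cnt (L k) (h k)) ^ N k := by
    intro k
    have h1 : ∀ p ∈ range (R (k + 1) + 1), P (⋃ q ∈ range (2 * R (k + 1) + 1),
        {ω | ∀ m < N k, ¬ Good2 (fam (R (k + 1)) p q) (fun e => t e ω) a b
          ((R k : ℤ) + m * (L k + 1)) (L k) (h k)}) ≤ ((2 * R (k + 1) + 1 : ℕ) : ℝ≥0∞) *
        (1 - (G (Set.Iic a) * G (Set.Ici b)) ^ cnt (L k) (h k)) ^ N k := by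
      intro p hp
      refine (measure_biUnion_finset_le _ _).trans ?_
      refine (Finset.sum_le_card_nsmul _ _ _ fun q _ => ?_).trans_eq
        (by rw [Finset.card_range, nsmul_eq_mul])
      exact no_good hmeas hind hG (stair_fam (by rw [Finset.mem_range] at hp; omega)) _ _ _ _ (hL k)
    refine (measure_biUnion_finset_le _ _).trans ?_
    refine (Finset.sum_le_card_nsmul _ _ _ h1).trans_eq ?_
    rw [Finset.card_range, nsmul_eq_mul, mul_assoc]
  have hsum := ne_top_of_le_ne_top hN (ENNReal.tsum_le_tsum hB)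
  filter_upwards [ae_eventually_notMem hsum] with ω hω
  filter_upwards [hω] with k hk p hp q hq
  by_contra hcon
  push Not at hcon
  apply hk
  simp only [Set.mem_iUnion]
  exact ⟨p, by rw [Finset.mem_range]; omega, q, by rw [Finset.mem_range]; omega, hcon⟩

end Vale.Agent.P158
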