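import Vale.Agent.P158.Defs3
import Vale.Agent.P158.Cross2
import Vale.Agent.P158.Floor
import Vale.Agent.P158.Ivt2
import Vale.Agent.P158.U3

/-! P158: the deterministic part for all lines simultaneously. -/

namespace Vale.Agent.P158

open Finset Filter

theorem W6.stair_fam {Q p q : ℕ} (hp : p ≤ Q) : Stair (fam Q p q) := by
  have h0 : (0 : ℝ) ≤ (p : ℝ) / Q := by positivity
  have h1 : (p : ℝ) / Q ≤ 1 := div_le_one_of_le₀ (by exact_mod_cast hp) (Nat.cast_nonneg _)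
  intro x
  obtain ⟨h2, h3⟩ := stair_floor h0 h1 x
  unfold fam
  constructor
  · linarith
  · linarith

theorem W6.approx' {α β : ℝ} (h0 : 0 ≤ α) (h1 : α ≤ 1) {Q : ℕ} (hQ : |β| + 1 ≤ Q) :
    ∃ p ≤ Q, ∃ q ≤ 2 * Q, ∀ x y : ℤ, 0 ≤ x → x ≤ Q →
      |(y : ℝ) - ((fam Q p q x : ℤ) : ℝ)| ≤ |(y : ℝ) - (α * x + β)| + 3 := by
  have hQ1 : 1 ≤ Q := by
    have := abs_nonneg β
    have h2 : (1 : ℝ) ≤ Q := by linarith
    exact_mod_cast h2
  obtain ⟨p, hp, q, hq, h⟩ := Vale.Agent.P158.approx h0 h1 hQ1 (show |β| ≤ Q - 1 by linarith)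
  obtain ⟨hq1, hq2⟩ := abs_le.1 hq
  refine ⟨p, hp, (q + Q).toNat, by omega, fun x y hx hx' => ?_⟩
  have h3 := h x y hx hx'
  have e : fam Q p (q + Q).toNat x = ⌊((p : ℝ) / Q) * x⌋ + q := by
    unfold fam
    rw [Int.toNat_of_nonneg (by omega)]
    ring
  rw [e]
  exact h3

/-- the deterministic part -/
theorem no_ray3 {t : Sym2 V → ℝ} (ht : ∀ e, 0 ≤ t e) {a b : ℝ} (ha : 0 ≤ a) (hab : a < b)
    {R L N h : ℕ → ℕ} {f : ℕ → ℝ} (hL1 : ∀ k, 1 ≤ L k)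
    (hL : ∀ k : ℕ, a * (L k + 4 * h k + 2) < b * (L k - 2 * h k))
    (hR : ∀ k, R k + N k * (L k + 1) ≤ R (k + 1)) (hRk : ∀ k, k ≤ R k)
    (hf : ∀ C : ℝ, ∀ᶠ k in atTop, ∀ x, R k ≤ x → x < R (k + 1) → f x + C ≤ h k)
    (hg : ∀ᶠ k in atTop, ∀ p ≤ R (k + 1), ∀ q ≤ 2 * R (k + 1), ∃ m < N k,
      Good2 (fam (R (k + 1)) p q) t a b ((R k : ℤ) + m * (L k + 1)) (L k) (h k))
    {v : ℕ → V} (hv : IsRay t v) (hlim : Tendsto (fun i => (v i).1) atTop atTop) {α β C : ℝ}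
    (h0 : 0 ≤ α) (h1 : α ≤ 1)
    (hh : ∀ᶠ i in atTop, |((v i).2 : ℝ) - (α * (v i).1 + β)| ≤ f (v i).1.natAbs + C) : False := by
  obtain ⟨i0, hi0⟩ := hh.exists_forall_of_atTop
  obtain ⟨k, ⟨hgk, hfk⟩, hk⟩ := ((hg.and (hf (C + 3))).and
    (eventually_ge_atTop (max (v i0).1.toNat ⌈|β| + 1⌉₊))).exists
  have hk1 : (v i0).1.toNat ≤ k := (le_max_left _ _).trans hk
  have hk2 : ⌈|β| + 1⌉₊ ≤ k := (le_max_right _ _).trans hk
  have hkR : k ≤ R k := hRk k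
  have hkR' : k ≤ R (k + 1) := by
    have := hRk (k + 1)
    omega
  have hQ : |β| + 1 ≤ (R (k + 1) : ℝ) := by
    refine (Nat.le_ceil _).trans ?_
    exact_mod_cast hk2.trans hkR'
  obtain ⟨p, hp, q, hq, happ⟩ := W6.approx' h0 h1 hQ
  obtain ⟨m, hm, hgood⟩ := hgk p hp q hq
  have hstep : ∀ i, |(v (i + 1)).1 - (v i).1| ≤ 1 := by
    intro i
    have h1 := hv.2.1 i
    unfold Adj at h1
    have h2 := abs_nonneg ((v i).2 - (v (i + 1)).2)
    rw [abs_sub_comm]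
    linarith
  have hm' : m * (L k + 1) + (L k + 1) ≤ N k * (L k + 1) := by
    calc m * (L k + 1) + (L k + 1) = (m + 1) * (L k + 1) := by ring
      _ ≤ N k * (L k + 1) := Nat.mul_le_mul_right _ hm
  have hRk1 := hR k
  set X : ℤ := (R k : ℤ) + m * (L k + 1) with hX
  have hXR : (R k : ℤ) ≤ X := by
    rw [hX]
    have : (0 : ℤ) ≤ m * (L k + 1) := by positivity
    linarith
  have hXR' : X + L k < R (k + 1) := by
    rw [hX]
    have h5 : ((m * (L k + 1) + (L k + 1) : ℕ) : ℤ) ≤ ((N k * (L k + 1) : ℕ) : ℤ) := by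
      exact_mod_cast hm'
    have h6 : ((R k + N k * (L k + 1) : ℕ) : ℤ) ≤ (R (k + 1) : ℤ) := by exact_mod_cast hRk1
    push_cast at h5 h6
    linarith
  have hX0 : (v i0).1 ≤ X := by
    have : ((v i0).1.toNat : ℤ) ≤ X := by
      have : ((v i0).1.toNat : ℤ) ≤ k := by exact_mod_cast hk1
      have h7 : (k : ℤ) ≤ R k := by exact_mod_cast hkR
      linarith
    omega
  obtain ⟨i, j, h2, h3, h4, h5, h6⟩ := ivt2 hstep hlim hX0 (hL1 k)
  refine cross2 (W6.stair_fam (q := q) hp) ht ha hab (hL k) hgood hv h3 h4 h5 h6 (fun l hl1 hl2 => ?_)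
  have hw : X ≤ (v l).1 ∧ (v l).1 ≤ X + L k := by
    rcases eq_or_lt_of_le hl1 with h7 | h7
    · rw [← h7, h4]
      constructor
      · exact le_rfl
      · have : (0 : ℤ) ≤ L k := by positivity
        linarith
    · rcases eq_or_lt_of_le hl2 with h8 | h8
      · rw [h8, h5]
        constructor
        · have : (0 : ℤ) ≤ L k := by positivity
          linarith
        · exact le_rfl
      · obtain ⟨h9, h10⟩ := h6 l h7 h8
        exact ⟨h9.le, h10.le⟩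
  have hx0 : (0 : ℤ) ≤ (v l).1 := by
    have : (0 : ℤ) ≤ R k := by positivity
    linarith [hw.1]
  have hn1 : R k ≤ (v l).1.natAbs := by
    have := hw.1
    omega
  have hn2 : (v l).1.natAbs < R (k + 1) := by
    have := hw.2
    omega
  have h7 := hfk (v l).1.natAbs hn1 hn2
  have h8 := hi0 l (h2.trans hl1)
  have h9 := happ (v l).1 (v l).2 hx0 (by linarith [hw.2])
  have h10 : |((v l).2 : ℝ) - ((fam (R (k + 1)) p q (v l).1 : ℤ) : ℝ)| ≤ h k := by linarith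
  have h11 : |(v l).2 - fam (R (k + 1)) p q (v l).1| ≤ (h k : ℤ) := by exact_mod_cast h10
  rw [Int.abs_eq_natAbs] at h11
  exact_mod_cast h11

end Vale.Agent.P158
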