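import Vale.Agent.P158.W6
import Vale.Agent.P158.W3
import Vale.Agent.P158.W1
import Vale.Agent.P158.Main

/-! P158: assembly for one position of the coordinate system. -/

namespace Vale.Agent.P158

open Finset MeasureTheory ProbabilityTheory Filter
open scoped ENNReal

namespace W7

theorem cnt_le {K h : ℕ} (hK : 1 ≤ K) : cnt (K * (h + 1)) h ≤ 10 * K * (h + 1) ^ 2 := by
  unfold cnt
  have h1 : h + 1 ≤ K * (h + 1) := Nat.le_mul_of_pos_left _ hK
  nlinarith [Nat.zero_le (K * h * h), Nat.zero_le (K * h), Nat.zero_le K]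

theorem width {M : ℕ} (hM : 1 ≤ M) (C : ℝ) :
    ∀ᶠ k : ℕ in atTop, ∀ x : ℕ, 2 ^ k ≤ x → x < 2 ^ (k + 1) →
      1 / (4 * √(M : ℝ)) * √(Real.log ((x : ℝ) + 2)) + C ≤ (Nat.sqrt (k / M) : ℝ) := by
  have hM0 : (0 : ℝ) < M := by exact_mod_cast hM
  have hs : 0 < √(M : ℝ) := Real.sqrt_pos.2 hM0
  have ht : Tendsto (fun k : ℕ => √(k : ℝ)) atTop atTop :=
    Real.tendsto_sqrt_atTop.comp tendsto_natCast_atTop_atTop
  filter_upwards [ht.eventually_ge_atTop (2 * (C + 1) * √(M : ℝ)), eventually_ge_atTop 1] with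
    k hk hk1 x hx1 hx2
  have hk1' : (1 : ℝ) ≤ k := by exact_mod_cast hk1
  have hlog : Real.log ((x : ℝ) + 2) ≤ k + 2 := by
    have h1 : (x : ℝ) + 2 ≤ 2 ^ (k + 2) := by
      have h2 : x + 2 ≤ 2 ^ (k + 2) := by
        have h3 : 2 ^ (k + 2) = 2 ^ (k + 1) + 2 ^ (k + 1) := by ring
        have h4 : 2 ≤ 2 ^ (k + 1) := by
          have : 1 ≤ 2 ^ k := Nat.one_le_two_pow
          have h5 : 2 ^ (k + 1) = 2 * 2 ^ k := by ring
          omega
        omega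
      exact_mod_cast h2
    have h2 := Real.log_le_log (by positivity) h1
    rw [Real.log_pow] at h2
    have h3 := Real.log_two_lt_d9
    push_cast at h2
    nlinarith
  have hsq : √(Real.log ((x : ℝ) + 2)) ≤ 2 * √(k : ℝ) := by
    rw [Real.sqrt_le_iff]
    refine ⟨by positivity, hlog.trans ?_⟩
    rw [mul_pow, Real.sq_sqrt (by positivity)]
    linarith
  have hh : √(k : ℝ) ≤ ((Nat.sqrt (k / M) : ℝ) + 1) * √(M : ℝ) := by
    rw [Real.sqrt_le_iff]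
    refine ⟨by positivity, ?_⟩
    rw [mul_pow, Real.sq_sqrt (by positivity)]
    have h1 : k / M < (Nat.sqrt (k / M) + 1) ^ 2 := Nat.lt_succ_sqrt' _
    rw [Nat.div_lt_iff_lt_mul hM] at h1
    exact_mod_cast h1.le
  have e1 : 1 / (4 * √(M : ℝ)) * √(Real.log ((x : ℝ) + 2)) ≤ √(k : ℝ) / (2 * √(M : ℝ)) := by
    calc 1 / (4 * √(M : ℝ)) * √(Real.log ((x : ℝ) + 2))
        ≤ 1 / (4 * √(M : ℝ)) * (2 * √(k : ℝ)) := mul_le_mul_of_nonneg_left hsq (by positivity)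
      _ = √(k : ℝ) / (2 * √(M : ℝ)) := by field_simp; ring
  have e2 : C + 1 ≤ √(k : ℝ) / (2 * √(M : ℝ)) := by
    rw [le_div_iff₀ (by positivity)]
    linarith
  have e3 : √(k : ℝ) / √(M : ℝ) ≤ (Nat.sqrt (k / M) : ℝ) + 1 := by
    rw [div_le_iff₀ hs]
    exact hh
  have e4 : √(k : ℝ) / √(M : ℝ) = √(k : ℝ) / (2 * √(M : ℝ)) + √(k : ℝ) / (2 * √(M : ℝ)) := by
    field_simp
    ring
  linarith

end W7

/-- assembly for one position of the coordinate system -/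
theorem one3 {G : Measure ℝ} [IsProbabilityMeasure G] (hG0 : G (Set.Iio 0) = 0)
    (hGa : ∀ x, G {x} = 0) :
    ∃ κ : ℝ, 0 < κ ∧
      ∀ {Ω : Type} [MeasurableSpace Ω] (P : Measure Ω) [IsProbabilityMeasure P]
        (t : Sym2 V → Ω → ℝ), (∀ e, Measurable (t e)) → (∀ e, P.map (t e) = G) → iIndepFun t P →
        ∀ (ρ : V ≃ V), (∀ u v, Adj (ρ u) (ρ v) ↔ Adj u v) →
        ∀ᵐ ω ∂P, ∀ v : ℕ → V, IsRay (fun e => t e ω) v →
          Tendsto (fun i => (ρ (v i)).1) atTop atTop → ∀ α β : ℝ, 0 ≤ α → α ≤ 1 →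
          ∃ᶠ i in atTop, κ * √(Real.log (((ρ (v i)).1.natAbs : ℝ) + 2)) <
            |((ρ (v i)).2 : ℝ) - (α * (ρ (v i)).1 + β)| := by
  obtain ⟨a, b, ha, hab, hGa', hGb'⟩ := two_points G hG0 hGa
  have hb : 0 < b := ha.trans_lt hab
  obtain ⟨K, hK⟩ := exists_nat_gt ((6 * a + 2 * b) / (b - a))
  rw [div_lt_iff₀ (by linarith)] at hK
  have hK1 : 1 ≤ K := by
    rcases Nat.eq_zero_or_pos K with h | h
    · rw [h, Nat.cast_zero, zero_mul] at hK
      linarith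
    · exact h
  have hq : G (Set.Iic a) * G (Set.Ici b) ≠ 0 := mul_ne_zero hGa' hGb'
  have hq1 : G (Set.Iic a) * G (Set.Ici b) ≤ 1 := mul_le_one' prob_le_one prob_le_one
  obtain ⟨M, hM, hsum⟩ := sum_scales (10 * K) hq hq1
  refine ⟨1 / (4 * √(M : ℝ)), ?_, ?_⟩
  · have hM0 : (0 : ℝ) < M := by exact_mod_cast hM
    have := Real.sqrt_pos.2 hM0
    positivity
  intro Ω _ P _ t hmeas hlaw hind ρ hρ
  have hinj : Function.Injective (Sym2.map ρ.symm) := Sym2.map.injective ρ.symm.injective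
  have hsum' : ∑' k : ℕ, ((2 ^ (k + 1) + 1 : ℕ) : ℝ≥0∞) * ((2 * 2 ^ (k + 1) + 1 : ℕ) : ℝ≥0∞) *
      (1 - (G (Set.Iic a) * G (Set.Ici b)) ^ cnt (K * (Nat.sqrt (k / M) + 1)) (Nat.sqrt (k / M))) ^
        (2 ^ k / (10 * K * (Nat.sqrt (k / M) + 1) + 1)) ≠ ⊤ := by
    refine ne_top_of_le_ne_top hsum (ENNReal.tsum_le_tsum fun k => ?_)
    exact mul_le_mul' le_rfl (pow_le_pow_left'
      (tsub_le_tsub_left (pow_le_pow_right_of_le_one' hq1 (W7.cnt_le hK1)) _) _)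
  have h1 := fam_ae (t := fun e => t (Sym2.map ρ.symm e)) (fun e => hmeas _)
    (hind.precomp hinj) (fun e => hlaw _) (a := a) (b := b) (h := fun k => Nat.sqrt (k / M))
    (L := fun k => K * (Nat.sqrt (k / M) + 1))
    (N := fun k => 2 ^ k / (10 * K * (Nat.sqrt (k / M) + 1) + 1)) (R := fun k => 2 ^ k)
    (fun k => Nat.mul_pos hK1 (Nat.succ_pos _)) hsum'
  have h2 : ∀ᵐ ω ∂P, ∀ e, 0 ≤ t e ω := by
    have : Countable (Sym2 V) := Main.instCountableSym2V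
    rw [ae_all_iff]
    intro e
    have h3 : P (t e ⁻¹' Set.Iio 0) = 0 := by
      rw [← Measure.map_apply (hmeas e) measurableSet_Iio, hlaw e, hG0]
    rw [ae_iff]
    simpa [Set.preimage, not_le] using h3
  filter_upwards [h1, h2] with ω hω h0 v hv hlim α β hα0 hα1
  by_contra hcon
  rw [not_frequently] at hcon
  refine no_ray3 (t := fun e => t (Sym2.map ρ.symm e) ω) (fun e => h0 _) ha hab
    (R := fun k => 2 ^ k) (L := fun k => K * (Nat.sqrt (k / M) + 1))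
    (N := fun k => 2 ^ k / (10 * K * (Nat.sqrt (k / M) + 1) + 1))
    (h := fun k => Nat.sqrt (k / M))
    (f := fun x => 1 / (4 * √(M : ℝ)) * √(Real.log ((x : ℝ) + 2)))
    (fun k => Nat.mul_pos hK1 (Nat.succ_pos _)) ?_ ?_ (fun k => Nat.lt_two_pow_self.le)
    (fun C => W7.width hM C) hω (ray_map ρ hρ hv) hlim hα0 hα1 (C := 0) (β := β) ?_
  · intro k
    have h5 : (0 : ℝ) ≤ (Nat.sqrt (k / M) : ℝ) := Nat.cast_nonneg _
    push_cast
    nlinarith [mul_lt_mul_of_pos_right hK (by linarith : (0 : ℝ) < (Nat.sqrt (k / M) : ℝ) + 1),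
      mul_nonneg ha h5, mul_nonneg hb.le h5]
  · intro k
    show 2 ^ k + 2 ^ k / (10 * K * (Nat.sqrt (k / M) + 1) + 1) * (K * (Nat.sqrt (k / M) + 1) + 1) ≤
      2 ^ (k + 1)
    have h6 : 2 ^ k / (10 * K * (Nat.sqrt (k / M) + 1) + 1) * (K * (Nat.sqrt (k / M) + 1) + 1) ≤
        2 ^ k := by
      refine (Nat.mul_le_mul_left _ ?_).trans
        (Nat.div_mul_le_self (2 ^ k) (10 * K * (Nat.sqrt (k / M) + 1) + 1))
      have h7 : K * (Nat.sqrt (k / M) + 1) ≤ 10 * K * (Nat.sqrt (k / M) + 1) :=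
        Nat.mul_le_mul_right _ (by omega)
      omega
    have h8 : 2 ^ (k + 1) = 2 ^ k + 2 ^ k := by ring
    omega
  · refine hcon.mono fun i hi => ?_
    rw [add_zero]
    exact not_lt.1 hi

end Vale.Agent.P158
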