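import Vale.Agent.P158.W7
import Vale.Agent.P158.U8
import Vale.Agent.P158.Bi

/-! P158: all lines simultaneously, width a small multiple of the square root of the logarithm. -/

namespace Vale.Agent.P158

open Finset MeasureTheory ProbabilityTheory Filter

/-- all lines simultaneously, explicit width -/
theorem main5 {G : Measure ℝ} [IsProbabilityMeasure G] (hG0 : G (Set.Iio 0) = 0)
    (hGa : ∀ x, G {x} = 0) :
    ∃ κ : ℝ, 0 < κ ∧
      ∀ {Ω : Type} [MeasurableSpace Ω] (P : Measure Ω) [IsProbabilityMeasure P]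
        (t : Sym2 V → Ω → ℝ), (∀ e, Measurable (t e)) → (∀ e, P.map (t e) = G) → iIndepFun t P →
        ∀ᵐ ω ∂P, ∀ v : ℕ → V, IsRay (fun e => t e ω) v → ∀ α c : ℝ, |α| ≤ 1 →
          (∃ᶠ i in atTop,
            κ * √(Real.log (|((v i).1 : ℝ)| + 2)) < |((v i).2 : ℝ) - (α * (v i).1 + c)|) ∧
          (∃ᶠ i in atTop,
            κ * √(Real.log (|((v i).2 : ℝ)| + 2)) < |((v i).1 : ℝ) - (α * (v i).2 + c)|) := by
  obtain ⟨κ, hκ, h⟩ := one3 hG0 hGa
  refine ⟨κ, hκ, fun {Ω} _ P _ t hm hl hi => ?_⟩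
  have h1 := sym4 (P := P) (t := t) (ι := Unit)
    (w := fun _ n => κ * √(Real.log ((n : ℝ) + 2))) (fun ρ hρ => by
      filter_upwards [h P t hm hl hi ρ hρ] with ω hω v hv hlim α β h0 h1 _
      exact hω v hv hlim α β h0 h1)
  have e : ∀ z : ℤ, ((z.natAbs : ℕ) : ℝ) = |(z : ℝ)| := fun z => by
    rw [Nat.cast_natAbs, Int.cast_abs]
  filter_upwards [h1] with ω hω v hv α c hα
  have h2 := hω v hv α c hα ()
  simpa only [e] using h2

end Vale.Agent.P158
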